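import Vale.Agent.P042.PS463.Minor
set_option autoImplicit false

/-! Mixtures of the one-sided Fejer kernels over dyadic scales. -/

namespace Vale.Agent.P042.X4

open Polynomial Finset Vale.Agent.P042.PS463

lemma norm_e_sub_one_ge (β : ℝ) (hβ : |β| ≤ 1 / 2) : 4 * |β| ≤ ‖e β - 1‖ := by
  have h1 : 2 / Real.pi * |Real.pi * β| ≤ |Real.sin (Real.pi * β)| := by
    apply Real.mul_abs_le_abs_sin
    rw [abs_mul, abs_of_pos Real.pi_pos]
    nlinarith [Real.pi_pos]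
  have h2 : 2 / Real.pi * |Real.pi * β| = 2 * |β| := by
    rw [abs_mul, abs_of_pos Real.pi_pos]
    field_simp [Real.pi_pos.ne']
  have h3 : ‖e β - 1‖ = 2 * |Real.sin (Real.pi * β)| := by
    unfold e
    have h4 : Complex.exp (((2 * Real.pi * β : ℝ) : ℂ) * Complex.I) - 1 =
        Complex.exp (((Real.pi * β : ℝ) : ℂ) * Complex.I) *
          (2 * Complex.I * (Real.sin (Real.pi * β) : ℂ)) := by
      have h5 : Complex.exp (((2 * Real.pi * β : ℝ) : ℂ) * Complex.I) =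
          Complex.exp (((Real.pi * β : ℝ) : ℂ) * Complex.I) *
            Complex.exp (((Real.pi * β : ℝ) : ℂ) * Complex.I) := by
        rw [← Complex.exp_add]
        congr 1
        push_cast
        ring
      have h6 : Complex.exp (((Real.pi * β : ℝ) : ℂ) * Complex.I) *
          Complex.exp (-((Real.pi * β : ℝ) : ℂ) * Complex.I) = 1 := by
        rw [← Complex.exp_add]
        simp
      have hI : Complex.I * Complex.I = -1 := Complex.I_mul_I
      rw [h5, Complex.ofReal_sin, Complex.sin]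
      generalize Complex.exp (((Real.pi * β : ℝ) : ℂ) * Complex.I) = E1 at *
      generalize Complex.exp (-((Real.pi * β : ℝ) : ℂ) * Complex.I) = E2 at *
      linear_combination h6 - E1 * (E2 - E1) * hI
    rw [h4, norm_mul, Complex.norm_exp_ofReal_mul_I, one_mul, norm_mul, norm_mul, Complex.norm_I,
      Complex.norm_real, Real.norm_eq_abs]
    simp
  rw [h3]
  linarith

lemma geom_norm_le (z : ℂ) (hz : ‖z‖ = 1) (hz1 : z ≠ 1) (m : ℕ) :
    ‖∑ j ∈ range m, z ^ j‖ ≤ 2 / ‖z - 1‖ := by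
  have h0 : 0 < ‖z - 1‖ := norm_pos_iff.2 (sub_ne_zero.2 hz1)
  rw [geom_sum_eq hz1, norm_div]
  apply div_le_div_of_nonneg_right _ h0.le
  refine (norm_sub_le _ _).trans ?_
  rw [norm_pow, hz, one_pow, norm_one]
  norm_num

lemma tri_norm_le (z : ℂ) (hz : ‖z‖ = 1) (hz1 : z ≠ 1) (L : ℕ) :
    ‖∑ j ∈ range L, ((L : ℂ) - j) * z ^ j‖ ≤ L * (2 / ‖z - 1‖) := by
  induction L with
  | zero => simp
  | succ L ih =>
    have h3 : ∑ j ∈ range (L + 1), (((L + 1 : ℕ) : ℂ) - j) * z ^ j =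
        ∑ j ∈ range L, ((L : ℂ) - j) * z ^ j + ∑ j ∈ range (L + 1), z ^ j := by
      have h4 : ∑ j ∈ range (L + 1), (((L + 1 : ℕ) : ℂ) - j) * z ^ j =
          ∑ j ∈ range (L + 1), ((L : ℂ) - j) * z ^ j + ∑ j ∈ range (L + 1), z ^ j := by
        rw [← Finset.sum_add_distrib]
        apply Finset.sum_congr rfl
        intro j _
        push_cast
        ring
      rw [h4, Finset.sum_range_succ (fun j : ℕ => ((L : ℂ) - j) * z ^ j), sub_self, zero_mul,
        add_zero]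
    rw [h3]
    refine (norm_add_le _ _).trans ?_
    have h5 := geom_norm_le z hz hz1 (L + 1)
    push_cast
    calc _ ≤ L * (2 / ‖z - 1‖) + 2 / ‖z - 1‖ := add_le_add ih h5
      _ = _ := by ring

variable {h : ℤ[X]} {X0 K : ℕ}

lemma V_norm2 (hG : Gr h X0 K) {X : ℕ} (hX : X0 ≤ X) (β : ℝ) (hβ0 : β ≠ 0) (hβ : |β| ≤ 1 / 2) :
    ‖VV h X0 X β‖ ≤ 1 / (|β| * hv h X) +
      (2 * rr h X * (1 + 2 * Real.pi * |β| * hv h X) + 2 * hv h X0 / hv h X) := by
  have h1 := hG.V_approx hX β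
  have hL := hG.hv_pos hX
  have hb : 0 < |β| := abs_pos.2 hβ0
  set W : ℂ := 2 / (hv h X : ℂ) ^ 2 * ∑ j ∈ range (hn h X), ((hn h X : ℂ) - j) * e (j * β)
    with hW
  have h2 := norm_e_sub_one_ge β hβ
  have hz1 : e β ≠ 1 := by
    intro h3
    rw [h3, sub_self, norm_zero] at h2
    linarith
  have h4 : ∑ j ∈ range (hn h X), ((hn h X : ℂ) - j) * e (j * β) =
      ∑ j ∈ range (hn h X), ((hn h X : ℂ) - j) * e β ^ j := by
    apply Finset.sum_congr rfl
    intro j _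
    rw [e_nat]
  have h5 := tri_norm_le (e β) (norm_e β) hz1 (hn h X)
  rw [← h4, hG.hn_eq hX] at h5
  have h6 : ‖W‖ ≤ 1 / (|β| * hv h X) := by
    rw [hW, norm_mul]
    have e2 : ‖(2 / (hv h X : ℂ) ^ 2 : ℂ)‖ = 2 / hv h X ^ 2 := by
      rw [norm_div, norm_pow, Complex.norm_real, Real.norm_eq_abs, abs_of_pos hL]
      simp
    rw [e2]
    calc 2 / hv h X ^ 2 * ‖∑ j ∈ range (hn h X), ((hn h X : ℂ) - j) * e (j * β)‖
        ≤ 2 / hv h X ^ 2 * (hv h X * (2 / (4 * |β|))) := by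
          apply mul_le_mul_of_nonneg_left _ (by positivity)
          refine h5.trans ?_
          apply mul_le_mul_of_nonneg_left _ hL.le
          apply div_le_div_of_nonneg_left (by norm_num) (by positivity) h2
      _ = 1 / (|β| * hv h X) := by
          field_simp
          norm_num
  calc ‖VV h X0 X β‖ = ‖W + (VV h X0 X β - W)‖ := by congr 1; ring
    _ ≤ _ := (norm_add_le _ _).trans (add_le_add h6 h1)

/-- the geometric sum used below -/
lemma geo34 (n : ℕ) : ∑ i ∈ range n, (3 / 4 : ℝ) ^ i * (1 / 2) ^ (n - 1 - i) ≤ 4 * (3 / 4) ^ n := by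
  induction n with
  | zero => norm_num
  | succ n ih =>
    rw [Finset.sum_range_succ]
    have h1 : ∑ i ∈ range n, (3 / 4 : ℝ) ^ i * (1 / 2) ^ (n + 1 - 1 - i) =
        1 / 2 * ∑ i ∈ range n, (3 / 4 : ℝ) ^ i * (1 / 2) ^ (n - 1 - i) := by
      rw [Finset.mul_sum]
      apply Finset.sum_congr rfl
      intro i hi
      rw [Finset.mem_range] at hi
      have : n + 1 - 1 - i = (n - 1 - i) + 1 := by omega
      rw [this, pow_succ]
      ring
    rw [h1]
    have h2 : n + 1 - 1 - n = 0 := by omega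
    rw [h2, pow_zero, mul_one, pow_succ]
    have h3 : (0 : ℝ) < (3 / 4) ^ n := by positivity
    linarith

lemma geo34' (n : ℕ) : ∑ i ∈ range n, (3 / 4 : ℝ) ^ i ≤ 4 := by
  have h1 : ∑ i ∈ range n, (3 / 4 : ℝ) ^ i = 4 - 4 * (3 / 4) ^ n := by
    rw [geom_sum_eq (by norm_num)]
    ring
  rw [h1]
  have : (0 : ℝ) < (3 / 4) ^ n := by positivity
  linarith

/-- the abstract sector estimate for a mixture -/
lemma mix_sector (I : ℕ) (V : ℕ → ℂ) (y : ℕ → ℝ) (ε K : ℝ) (hε : 0 ≤ ε) (hK : 0 ≤ K)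
    (hy : ∀ i j, i ≤ j → j ≤ I → y j ≤ y i)
    (hre : ∀ i ≤ I, -ε ≤ (V i).re)
    (hre2 : ∀ i ≤ I, y i ≤ 1 / 8 → 1 / 4 ≤ (V i).re)
    (hn2 : ∀ i ≤ I, ‖V i‖ ≤ 2)
    (hn : ∀ i j, i ≤ j → j ≤ I → 1 / 8 < y j → ‖V i‖ ≤ K * (1 / 2) ^ (j - i) + ε) :
    -(4 * ε) ≤ (∑ i ∈ range (I + 1), ((3 / 4 : ℝ) ^ i : ℂ) * V i).re ∧
    |(∑ i ∈ range (I + 1), ((3 / 4 : ℝ) ^ i : ℂ) * V i).im| ≤
      (16 * K + 8) * ((∑ i ∈ range (I + 1), ((3 / 4 : ℝ) ^ i : ℂ) * V i).re + 4 * ε) +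
        4 * ε + 4 * K * (3 / 4) ^ I := by
  have hw : ∀ i : ℕ, (((3 / 4 : ℝ) : ℂ) ^ i) = (((3 / 4 : ℝ) ^ i : ℝ) : ℂ) := by
    intro i; push_cast; rfl
  have hwp : ∀ i : ℕ, (0 : ℝ) < (3 / 4) ^ i := fun i => by positivity
  -- the threshold
  obtain ⟨n, hnI, hn1, hn3⟩ : ∃ n ≤ I + 1, (∀ i < n, 1 / 8 < y i) ∧ (∀ i, n ≤ i → i ≤ I → y i ≤ 1 / 8) := by
    by_cases hex : ∃ n, n ≤ I ∧ y n ≤ 1 / 8
    · classical
      refine ⟨Nat.find hex, ?_, ?_, ?_⟩
      · have := (Nat.find_spec hex).1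
        omega
      · intro i hi
        have h1 := Nat.find_min hex hi
        have h2 := (Nat.find_spec hex).1
        by_contra h3
        exact h1 ⟨by omega, by linarith⟩
      · intro i hi hiI
        exact (hy _ _ hi hiI).trans (Nat.find_spec hex).2
    · refine ⟨I + 1, le_rfl, ?_, ?_⟩
      · intro i hi
        by_contra h3
        exact hex ⟨i, by omega, by linarith⟩
      · intro i hi hiI
        omega
  have hsre : (∑ i ∈ range (I + 1), ((3 / 4 : ℝ) ^ i : ℂ) * V i).re =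
      ∑ i ∈ range (I + 1), (3 / 4 : ℝ) ^ i * (V i).re := by
    rw [Complex.re_sum]
    apply Finset.sum_congr rfl
    intro i _
    rw [hw, Complex.re_ofReal_mul]
  have hsim : (∑ i ∈ range (I + 1), ((3 / 4 : ℝ) ^ i : ℂ) * V i).im =
      ∑ i ∈ range (I + 1), (3 / 4 : ℝ) ^ i * (V i).im := by
    rw [Complex.im_sum]
    apply Finset.sum_congr rfl
    intro i _
    rw [hw, Complex.im_ofReal_mul]
  rw [hsre, hsim]
  set R := ∑ i ∈ range (I + 1), (3 / 4 : ℝ) ^ i * (V i).re with hR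
  have hR0 : -(4 * ε) ≤ R := by
    have h1 : ∑ i ∈ range (I + 1), (3 / 4 : ℝ) ^ i * (-ε) ≤ R := by
      apply Finset.sum_le_sum
      intro i hi
      rw [Finset.mem_range] at hi
      exact mul_le_mul_of_nonneg_left (hre i (by omega)) (hwp i).le
    rw [← Finset.sum_mul] at h1
    have h2 := geo34' (I + 1)
    nlinarith
  refine ⟨hR0, ?_⟩
  -- split at the threshold
  have hsplit : ∀ f : ℕ → ℝ, ∑ i ∈ range (I + 1), f i =
      ∑ i ∈ range n, f i + ∑ i ∈ Finset.Ico n (I + 1), f i := by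
    intro f
    rw [Finset.sum_range_add_sum_Ico _ hnI]
  set S := ∑ i ∈ Finset.Ico n (I + 1), (3 / 4 : ℝ) ^ i with hS
  have hS0 : 0 ≤ S := Finset.sum_nonneg fun i _ => (hwp i).le
  have hRS : S / 4 - 4 * ε ≤ R := by
    rw [hR, hsplit]
    have h1 : ∑ i ∈ range n, (3 / 4 : ℝ) ^ i * (-ε) ≤ ∑ i ∈ range n, (3 / 4 : ℝ) ^ i * (V i).re := by
      apply Finset.sum_le_sum
      intro i hi
      rw [Finset.mem_range] at hi
      exact mul_le_mul_of_nonneg_left (hre i (by omega)) (hwp i).le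
    rw [← Finset.sum_mul] at h1
    have h2 := geo34' n
    have h3 : ∑ i ∈ Finset.Ico n (I + 1), (3 / 4 : ℝ) ^ i * (1 / 4) ≤
        ∑ i ∈ Finset.Ico n (I + 1), (3 / 4 : ℝ) ^ i * (V i).re := by
      apply Finset.sum_le_sum
      intro i hi
      rw [Finset.mem_Ico] at hi
      exact mul_le_mul_of_nonneg_left (hre2 i (by omega) (hn3 i hi.1 (by omega))) (hwp i).le
    rw [← Finset.sum_mul, ← hS] at h3
    have h4 : 0 ≤ ∑ i ∈ range n, (3 / 4 : ℝ) ^ i := Finset.sum_nonneg fun i _ => (hwp i).le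
    nlinarith
  -- the imaginary part
  have him : |∑ i ∈ range (I + 1), (3 / 4 : ℝ) ^ i * (V i).im| ≤
      K * (4 * (3 / 4) ^ n) + 4 * ε + 2 * S := by
    refine (Finset.abs_sum_le_sum_abs _ _).trans ?_
    rw [hsplit]
    have h1 : ∑ i ∈ range n, |(3 / 4 : ℝ) ^ i * (V i).im| ≤
        ∑ i ∈ range n, (K * ((3 / 4 : ℝ) ^ i * (1 / 2) ^ (n - 1 - i)) + (3 / 4 : ℝ) ^ i * ε) := by
      apply Finset.sum_le_sum
      intro i hi
      rw [Finset.mem_range] at hi
      rw [abs_mul, abs_of_pos (hwp i)]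
      have h2 := hn i (n - 1) (by omega) (by omega) (hn1 (n - 1) (by omega))
      have h3 := (Complex.abs_im_le_norm (V i)).trans h2
      calc (3 / 4 : ℝ) ^ i * |(V i).im| ≤ (3 / 4 : ℝ) ^ i * (K * (1 / 2) ^ (n - 1 - i) + ε) :=
            mul_le_mul_of_nonneg_left h3 (hwp i).le
        _ = _ := by ring
    rw [Finset.sum_add_distrib, ← Finset.mul_sum, ← Finset.sum_mul] at h1
    have h4 := geo34 n
    have h5 := geo34' n
    have h6 : ∑ i ∈ Finset.Ico n (I + 1), |(3 / 4 : ℝ) ^ i * (V i).im| ≤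
        ∑ i ∈ Finset.Ico n (I + 1), (3 / 4 : ℝ) ^ i * 2 := by
      apply Finset.sum_le_sum
      intro i hi
      rw [Finset.mem_Ico] at hi
      rw [abs_mul, abs_of_pos (hwp i)]
      exact mul_le_mul_of_nonneg_left ((Complex.abs_im_le_norm _).trans (hn2 i (by omega))) (hwp i).le
    rw [← Finset.sum_mul, ← hS] at h6
    have h7 := mul_le_mul_of_nonneg_left h4 hK
    have h8 := mul_le_mul_of_nonneg_right h5 hε
    linarith
  refine him.trans ?_
  rcases Nat.lt_or_ge n (I + 1) with hlt | hge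
  · -- `S ≥ w^n`
    have h1 : (3 / 4 : ℝ) ^ n ≤ S := by
      rw [hS]
      apply Finset.single_le_sum (f := fun i => (3 / 4 : ℝ) ^ i) (fun i _ => (hwp i).le)
      rw [Finset.mem_Ico]
      omega
    have h2 : S ≤ 4 * (R + 4 * ε) := by linarith
    have h3 : K * (4 * (3 / 4) ^ n) ≤ 4 * K * S := by nlinarith
    have h4 : 4 * K * S ≤ 4 * K * (4 * (R + 4 * ε)) := mul_le_mul_of_nonneg_left h2 (by positivity)
    have h5 : 0 ≤ 4 * K * (3 / 4 : ℝ) ^ I := by positivity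
    linarith
  · have hnn : n = I + 1 := by omega
    have h1 : S = 0 := by
      rw [hS, hnn]
      simp
    rw [h1, hnn]
    have h2 : (3 / 4 : ℝ) ^ (I + 1) ≤ (3 / 4) ^ I := by
      rw [pow_succ]
      have := hwp I
      linarith
    have h3 : K * (4 * (3 / 4) ^ (I + 1)) ≤ 4 * K * (3 / 4) ^ I := by nlinarith
    have h4 : 0 ≤ (16 * K + 8) * (R + 4 * ε) := mul_nonneg (by positivity) (by linarith)
    linarith

end Vale.Agent.P042.X4
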