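import Mathlib.Analysis.Complex.Basic
set_option autoImplicit false

/-! Complex numbers in a narrow sector around the nonnegative real axis. -/

namespace Vale.Agent.P042.X4

/-- `z` lies in the sector of opening `α` around the nonnegative real axis -/
def Sec (α : ℝ) (z : ℂ) : Prop := ‖z - (‖z‖ : ℂ)‖ ≤ α * ‖z‖

lemma Sec.mono {α β : ℝ} {z : ℂ} (h : Sec α z) (hab : α ≤ β) : Sec β z := by
  unfold Sec at *
  refine h.trans ?_
  exact mul_le_mul_of_nonneg_right hab (norm_nonneg _)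

lemma Sec.mul {α β : ℝ} {z w : ℂ} (hz : Sec α z) (hw : Sec β w) : Sec (α + β) (z * w) := by
  unfold Sec at *
  have h1 : z * w - ((‖z * w‖ : ℝ) : ℂ) = (z - (‖z‖ : ℂ)) * w + (‖z‖ : ℂ) * (w - (‖w‖ : ℂ)) := by
    rw [norm_mul]
    push_cast
    ring
  rw [h1]
  refine (norm_add_le _ _).trans ?_
  rw [norm_mul, norm_mul, Complex.norm_real, norm_norm, norm_mul]
  have h2 := mul_le_mul_of_nonneg_right hz (norm_nonneg w)
  have h3 := mul_le_mul_of_nonneg_left hw (norm_nonneg z)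
  calc _ ≤ α * ‖z‖ * ‖w‖ + ‖z‖ * (β * ‖w‖) := add_le_add h2 h3
    _ = _ := by ring

lemma sec_of_real {z : ℂ} (h0 : z.im = 0) (h1 : 0 ≤ z.re) : Sec 0 z := by
  unfold Sec
  have h2 : z = ((z.re : ℝ) : ℂ) := by
    apply Complex.ext
    · simp
    · simp [h0]
  have h3 : ‖z‖ = z.re := by
    rw [h2, Complex.norm_real, Complex.ofReal_re, Real.norm_of_nonneg h1]
  rw [h3, ← h2, sub_self, norm_zero, zero_mul]

lemma sec_one : Sec 0 (1 : ℂ) := sec_of_real (by simp) (by simp)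

lemma Sec.im {α : ℝ} {z : ℂ} (h : Sec α z) : |z.im| ≤ α * ‖z‖ := by
  unfold Sec at h
  have h1 := (Complex.abs_im_le_norm (z - (‖z‖ : ℂ))).trans h
  rw [Complex.sub_im, Complex.ofReal_im, sub_zero] at h1
  exact h1

lemma Sec.re {α : ℝ} {z : ℂ} (h : Sec α z) : (1 - α) * ‖z‖ ≤ z.re := by
  unfold Sec at h
  have h1 := (Complex.abs_re_le_norm (z - (‖z‖ : ℂ))).trans h
  rw [Complex.sub_re, Complex.ofReal_re] at h1
  have h2 := (abs_le.1 h1).1
  linarith

/-- a small perturbation of a positive real number -/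
lemma sec_of_near {α s : ℝ} {z : ℂ} (h1 : α ≤ 1) (hs : 0 ≤ s)
    (h : ‖z - (s : ℂ)‖ ≤ α / 4 * s) : Sec α z := by
  unfold Sec
  rcases le_or_gt 0 α with hα | hα
  · have h2 : |‖z‖ - s| ≤ ‖z - (s : ℂ)‖ := by
      have := abs_norm_sub_norm_le z (s : ℂ)
      rwa [Complex.norm_real, Real.norm_of_nonneg hs] at this
    have h3 : ‖z - (‖z‖ : ℂ)‖ ≤ ‖z - (s : ℂ)‖ + |‖z‖ - s| := by
      have e1 : z - (‖z‖ : ℂ) = (z - (s : ℂ)) - ((‖z‖ - s : ℝ) : ℂ) := by push_cast; ring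
      rw [e1]
      refine (norm_sub_le _ _).trans ?_
      rw [Complex.norm_real, Real.norm_eq_abs]
    have h4 := (abs_le.1 (h2.trans h)).1
    have h5 : ‖z - (‖z‖ : ℂ)‖ ≤ α / 2 * s := by linarith
    have h6 : s ≤ 2 * ‖z‖ := by nlinarith
    calc _ ≤ α / 2 * s := h5
      _ ≤ α / 2 * (2 * ‖z‖) := mul_le_mul_of_nonneg_left h6 (by linarith)
      _ = α * ‖z‖ := by ring
  · have h2 : ‖z - (s : ℂ)‖ ≤ 0 := h.trans (mul_nonpos_of_nonpos_of_nonneg (by linarith) hs)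
    have h3 : ‖z - (s : ℂ)‖ = 0 := le_antisymm h2 (norm_nonneg _)
    have h4 : z = (s : ℂ) := by rwa [norm_eq_zero, sub_eq_zero] at h3
    have h5 : α / 4 * s = 0 := by
      rw [h3] at h
      have : α / 4 * s ≤ 0 := mul_nonpos_of_nonpos_of_nonneg (by linarith) hs
      linarith
    have h6 : s = 0 := by
      rcases mul_eq_zero.1 h5 with h7 | h7
      · linarith
      · exact h7
    rw [h4, h6]
    simp

end Vale.Agent.P042.X4
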