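import Vale.Agent.P042.PS463.Glue
import Vale.Agent.P042.X4.Ker
import Vale.Agent.P042.X4.Sec
set_option autoImplicit false

/-! The analytic part with local factors in a narrow sector: one arc. -/

namespace Vale.Agent.P042.X4

open Polynomial Finset Vale.Agent.P042.PS463

/-- an admissible family of periodic real weights, sector version -/
structure Adm2 (h : ℤ[X]) (B Q : ℕ) (η τ : ℝ) (u : ℕ → ℤ → ℝ) : Prop where
  per : ∀ n, 1 ≤ n → n ≤ Q → ∀ x : ℤ, u n (x + n) = u n x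
  bd : ∀ n, 1 ≤ n → n ≤ Q → ∀ x : ℤ, |u n x| ≤ (n : ℝ) ^ B
  one : ∑ n ∈ Finset.Icc 1 Q, mn h (u n) n 1 0 = 1
  sec : ∀ q : ℕ, 1 ≤ q → ∀ a : ℤ, IsCoprime a (q : ℤ) → ∃ G : ℂ, Sec τ G ∧
    ‖∑ n ∈ Finset.Icc 1 Q, mn h (u n) n q a - G‖ ≤ η

variable {h : ℤ[X]} {X0 K : ℕ}

lemma F_norm (u : ℕ → ℤ → ℝ) (B Q : ℕ)
    (hbd : ∀ n, 1 ≤ n → n ≤ Q → ∀ x : ℤ, |u n x| ≤ (n : ℝ) ^ B) (q : ℕ) (hq : 1 ≤ q) (a : ℤ) :
    ‖∑ n ∈ Finset.Icc 1 Q, mn h (u n) n q a‖ ≤ (Q : ℝ) ^ (B + 1) := by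
  refine (norm_sum_le _ _).trans ?_
  calc _ ≤ ∑ n ∈ Finset.Icc 1 Q, (Q : ℝ) ^ B := by
        apply Finset.sum_le_sum
        intro n hn
        rw [Finset.mem_Icc] at hn
        have hnQ : (n : ℝ) ≤ Q := by exact_mod_cast hn.2
        exact (mn_norm h (u n) n q hn.1 hq a _ (hbd n hn.1 hn.2)).trans
          (pow_le_pow_left₀ (Nat.cast_nonneg n) hnQ B)
    _ = (Q : ℝ) ^ (B + 1) := by
        rw [Finset.sum_const, Nat.card_Icc, nsmul_eq_mul, Nat.add_sub_cancel]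
        ring

/-- forget the sector -/
lemma Adm2.adm {B Q : ℕ} {η τ : ℝ} {u : ℕ → ℤ → ℝ} (hu : Adm2 h B Q η τ u) :
    Adm h B Q ((Q : ℝ) ^ (B + 1)) u := by
  refine ⟨hu.per, hu.bd, hu.one, ?_, ?_⟩
  · intro q hq a _
    exact (Complex.abs_im_le_norm _).trans (F_norm u B Q hu.bd q hq a)
  · intro q hq a _
    exact (abs_le.1 ((Complex.abs_re_le_norm _).trans (F_norm u B Q hu.bd q hq a))).1

lemma sec_mul_re (G V : ℂ) (τ T ε ε' : ℝ) (hG : Sec τ G) (hτ0 : 0 ≤ τ) (hT : 0 ≤ T)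
    (hτ : τ * (1 + T) ≤ 1) (hε : 0 ≤ ε) (hε' : 0 ≤ ε') (hR : 0 ≤ V.re + 4 * ε)
    (him : |V.im| ≤ T * (V.re + 4 * ε) + ε') :
    -(‖G‖ * (4 * ε + ε')) ≤ (G * V).re := by
  have h1 := hG.im
  have h2 := hG.re
  have h3 := (abs_le.1 (Complex.abs_re_le_norm G)).2
  have hn := norm_nonneg G
  set R := V.re + 4 * ε with hRd
  have e1 : V.re = R - 4 * ε := by rw [hRd]; ring
  rw [Complex.mul_re, e1]
  have h4 : |G.im * V.im| ≤ (τ * ‖G‖) * (T * R + ε') := by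
    rw [abs_mul]
    exact mul_le_mul h1 him (abs_nonneg _) (by positivity)
  have h5 := (abs_le.1 h4).2
  have h6 : (1 - τ) * ‖G‖ * R ≤ G.re * R := mul_le_mul_of_nonneg_right h2 hR
  have h7 : G.re * (4 * ε) ≤ ‖G‖ * (4 * ε) := mul_le_mul_of_nonneg_right h3 (by positivity)
  have hτ1 : τ ≤ 1 := by nlinarith
  have h8 : (τ * ‖G‖) * (T * R + ε') ≤ τ * T * (‖G‖ * R) + ‖G‖ * ε' := by
    have h9 : τ * ‖G‖ * ε' ≤ 1 * ‖G‖ * ε' := by gcongr
    nlinarith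
  have h10 : 0 ≤ ‖G‖ * R := mul_nonneg hn hR
  have h11 : τ * (1 + T) * (‖G‖ * R) ≤ 1 * (‖G‖ * R) := mul_le_mul_of_nonneg_right hτ h10
  nlinarith

/-- the dyadic scales -/
def sc (Y I i : ℕ) : ℕ := Y * 2 ^ (I - i)

lemma sc_ge (Y I i : ℕ) : Y ≤ sc Y I i := Nat.le_mul_of_pos_right Y (by positivity)

lemma sc_anti (Y I : ℕ) {i j : ℕ} (hij : i ≤ j) : sc Y I j ≤ sc Y I i := by
  unfold sc
  exact Nat.mul_le_mul_left Y (Nat.pow_le_pow_right (by norm_num) (by omega))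

lemma sc_ratio (Y I : ℕ) {i j : ℕ} (hij : i ≤ j) (hj : j ≤ I) : sc Y I i = 2 ^ (j - i) * sc Y I j := by
  unfold sc
  have : I - i = (j - i) + (I - j) := by omega
  rw [this, pow_add]
  ring

lemma sc_zero (Y I : ℕ) : sc Y I 0 = Y * 2 ^ I := rfl

/-- the mixed kernel in its sector -/
lemma mix_ker (hG : Gr h X0 K) (hk : 2 ≤ h.natDegree) (Y I : ℕ) (hY : X0 ≤ Y)
    (D : ℝ) (hD : 1 ≤ D) (β : ℝ) (hβ : |β| ≤ D / (sc Y I 0 : ℝ) ^ h.natDegree)
    (hβ2 : |β| ≤ 1 / 2)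
    (hbig : 2 * ((32 * (K : ℝ) ^ 2 + 4 * hv h X0) * D) ≤ Y)
    (ε : ℝ) (hε : ε = (32 * (K : ℝ) ^ 2 + 4 * hv h X0) * D / Y) :
    -(4 * ε) ≤ (∑ i ∈ range (I + 1), ((3 / 4 : ℝ) ^ i : ℂ) * VV h X0 (sc Y I i) β).re ∧
    |(∑ i ∈ range (I + 1), ((3 / 4 : ℝ) ^ i : ℂ) * VV h X0 (sc Y I i) β).im| ≤
      (16 * (16 * K) + 8) *
        ((∑ i ∈ range (I + 1), ((3 / 4 : ℝ) ^ i : ℂ) * VV h X0 (sc Y I i) β).re + 4 * ε) +
        4 * ε + 4 * (16 * K) * (3 / 4) ^ I := by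
  have hX01 := hG.X0pos
  have hY1 : 1 ≤ Y := by omega
  have hYr : (1 : ℝ) ≤ Y := by exact_mod_cast hY1
  have hY0 : (0 : ℝ) < Y := by linarith
  have hKr : (1 : ℝ) ≤ K := by exact_mod_cast hG.Kpos
  have hH0 := hG.hv_pos (x := X0) le_rfl
  have hπ := Real.pi_pos
  have hsY : ∀ i, X0 ≤ sc Y I i := fun i => hY.trans (sc_ge Y I i)
  have hs1 : ∀ i, 1 ≤ sc Y I i := fun i => by have := hsY i; omega
  have hsr : ∀ i, (1 : ℝ) ≤ sc Y I i := fun i => by exact_mod_cast hs1 i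
  have hsYr : ∀ i, (Y : ℝ) ≤ sc Y I i := fun i => by exact_mod_cast sc_ge Y I i
  have hL : ∀ i, 0 < hv h (sc Y I i) := fun i => hG.hv_pos (hsY i)
  have hLmono : ∀ i j, i ≤ j → hv h (sc Y I j) ≤ hv h (sc Y I i) := fun i j hij =>
    hG.mono (hsY j) (sc_anti Y I hij)
  have hε0 : 0 ≤ ε := by rw [hε]; positivity
  have hεh : ε ≤ 1 / 2 := by
    rw [hε, div_le_iff₀ hY0]
    linarith
  -- the bound `ε_i ≤ ε`
  have hεi : ∀ i, 2 * rr h (sc Y I i) * (1 + 2 * Real.pi * |β| * hv h (sc Y I i)) +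
      2 * hv h X0 / hv h (sc Y I i) ≤ ε := by
    intro i
    have hXk : (sc Y I i : ℝ) ≤ (sc Y I i : ℝ) ^ h.natDegree := by
      calc (sc Y I i : ℝ) = (sc Y I i : ℝ) ^ 1 := (pow_one _).symm
        _ ≤ (sc Y I i : ℝ) ^ h.natDegree := pow_le_pow_right₀ (hsr i) (by omega)
    have hLlow := hG.pos (sc Y I i) (hsY i)
    have hH0L : 2 * hv h X0 / hv h (sc Y I i) ≤ 4 * hv h X0 / (sc Y I i : ℝ) := by
      rw [div_le_div_iff₀ (hL i) (by linarith [hsr i])]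
      have h1 : (sc Y I i : ℝ) ≤ 2 * hv h (sc Y I i) := by linarith
      nlinarith
    have hXk0 : (0 : ℝ) < (sc Y I 0 : ℝ) ^ h.natDegree := by
      have := hsr 0
      positivity
    have hβL : |β| * hv h (sc Y I i) ≤ K * D := by
      calc |β| * hv h (sc Y I i) ≤ (D / (sc Y I 0 : ℝ) ^ h.natDegree) *
            (K * (sc Y I 0 : ℝ) ^ h.natDegree) := by
            apply mul_le_mul hβ _ (hL i).le
            · apply div_nonneg (by linarith) hXk0.le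
            · exact (hLmono 0 i (Nat.zero_le _)).trans (hG.up _ (hs1 0))
        _ = K * D := by field_simp
    have h1 := num_eps (K := K) (D := D) (X := sc Y I i) (H0 := hv h X0) (r := rr h (sc Y I i))
      (b := |β|) (L := hv h (sc Y I i)) (s := 2 * hv h X0 / hv h (sc Y I i)) hKr hD (hsr i) hH0.le
      (hG.rr_nonneg (hsY i)) (hG.rr_le (by omega) (hsY i))
      (mul_nonneg (abs_nonneg _) (hL i).le) hβL hH0L
    refine h1.trans ?_
    rw [hε]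
    apply div_le_div_of_nonneg_left _ hY0 (hsYr i)
    positivity
  -- apply the abstract lemma
  apply mix_sector I (fun i => VV h X0 (sc Y I i) β) (fun i => |β| * hv h (sc Y I i)) ε (16 * K) hε0
    (by positivity)
  · intro i j hij _
    exact mul_le_mul_of_nonneg_left (hLmono i j hij) (abs_nonneg _)
  · intro i _
    have h1 := hG.V_re (hsY i) β
    have h2 := hεi i
    linarith
  · intro i _ hyi
    have h1 := hG.V_low (hsY i) β hyi
    have h2 := hG.V_zero_ge (hsY i)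
    have h3 := hεi i
    have h4 : 2 * rr h (sc Y I i) + 2 * hv h X0 / hv h (sc Y I i) ≤ ε := by
      refine le_trans ?_ h3
      have h5 := hG.rr_nonneg (hsY i)
      have h6 : 0 ≤ 2 * Real.pi * |β| * hv h (sc Y I i) := by
        have := (hL i).le
        positivity
      nlinarith
    show 1 / 4 ≤ (VV h X0 (sc Y I i) β).re
    linarith
  · intro i _
    exact hG.V_norm (hsY i) β
  · intro i j hij hj hyj
    have hβ0 : β ≠ 0 := by
      rintro rfl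
      simp at hyj
      norm_num at hyj
    have hb : 0 < |β| := abs_pos.2 hβ0
    have h1 := V_norm2 hG (hsY i) β hβ0 hβ2
    have h2 := hεi i
    have h3 : 1 / (|β| * hv h (sc Y I i)) ≤ 16 * K * (1 / 2) ^ (j - i) := by
      have hLi := hL i
      rw [div_le_iff₀ (by positivity)]
      have h4 : hv h (sc Y I j) ≤ K * (sc Y I j : ℝ) ^ h.natDegree := hG.up _ (hs1 j)
      have h5 : (1 : ℝ) / 2 * (sc Y I i : ℝ) ^ h.natDegree ≤ hv h (sc Y I i) := hG.pos _ (hsY i)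
      have h6 : (sc Y I i : ℝ) = 2 ^ (j - i) * (sc Y I j : ℝ) := by
        rw [sc_ratio Y I hij hj]; push_cast; ring
      have h7 : (2 : ℝ) ^ (j - i) * (sc Y I j : ℝ) ^ h.natDegree ≤ (sc Y I i : ℝ) ^ h.natDegree := by
        rw [h6, mul_pow]
        apply mul_le_mul_of_nonneg_right _ (by positivity)
        apply le_self_pow₀ (one_le_pow₀ (by norm_num)) (by omega)
      have h8 : (1 / 2 : ℝ) ^ (j - i) * 2 ^ (j - i) = 1 := by
        rw [← mul_pow]; norm_num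
      have h9 : (sc Y I j : ℝ) ^ h.natDegree ≤ 2 * ((1 / 2 : ℝ) ^ (j - i) * hv h (sc Y I i)) := by
        have h10 : (1 / 2 : ℝ) ^ (j - i) * ((2 : ℝ) ^ (j - i) * (sc Y I j : ℝ) ^ h.natDegree) ≤
            (1 / 2 : ℝ) ^ (j - i) * (2 * hv h (sc Y I i)) := by
          apply mul_le_mul_of_nonneg_left _ (by positivity)
          linarith
        calc (sc Y I j : ℝ) ^ h.natDegree =
            (1 / 2 : ℝ) ^ (j - i) * 2 ^ (j - i) * (sc Y I j : ℝ) ^ h.natDegree := by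
              rw [h8, one_mul]
          _ = (1 / 2 : ℝ) ^ (j - i) * ((2 : ℝ) ^ (j - i) * (sc Y I j : ℝ) ^ h.natDegree) := by ring
          _ ≤ _ := h10
          _ = _ := by ring
      have h11 : (1 : ℝ) ≤ 8 * (|β| * hv h (sc Y I j)) := by
        have : 1 / 8 < |β| * hv h (sc Y I j) := hyj
        linarith
      calc (1 : ℝ) ≤ 8 * (|β| * hv h (sc Y I j)) := h11
        _ ≤ 8 * (|β| * (K * (2 * ((1 / 2 : ℝ) ^ (j - i) * hv h (sc Y I i))))) := by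
            have h12 : hv h (sc Y I j) ≤ K * (2 * ((1 / 2 : ℝ) ^ (j - i) * hv h (sc Y I i))) :=
              h4.trans (mul_le_mul_of_nonneg_left h9 (by positivity))
            have h13 := mul_le_mul_of_nonneg_left h12 hb.le
            linarith
        _ = 16 * K * (1 / 2) ^ (j - i) * (|β| * hv h (sc Y I i)) := by ring
    show ‖VV h X0 (sc Y I i) β‖ ≤ _
    linarith

lemma mix_norm (hG : Gr h X0 K) (Y I : ℕ) (hY : X0 ≤ Y) (β : ℝ) :
    ‖∑ i ∈ range (I + 1), ((3 / 4 : ℝ) ^ i : ℂ) * VV h X0 (sc Y I i) β‖ ≤ 8 := by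
  refine (norm_sum_le _ _).trans ?_
  calc _ ≤ ∑ i ∈ range (I + 1), (3 / 4 : ℝ) ^ i * 2 := by
        apply Finset.sum_le_sum
        intro i _
        rw [norm_mul, norm_pow, Complex.norm_real, Real.norm_of_nonneg (by norm_num)]
        exact mul_le_mul_of_nonneg_left (hG.V_norm (hY.trans (sc_ge Y I i)) β) (by positivity)
    _ ≤ 8 := by
        rw [← Finset.sum_mul]
        have := geo34' (I + 1)
        linarith

/-- the mixed LP function -/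
noncomputable def ffm (h : ℤ[X]) (u : ℕ → ℤ → ℝ) (Q X0 Y I : ℕ) (θ : ℝ) : ℂ :=
  ∑ i ∈ range (I + 1), ((3 / 4 : ℝ) ^ i : ℂ) * ff h u Q X0 (sc Y I i) θ

lemma ffm_re (h : ℤ[X]) (u : ℕ → ℤ → ℝ) (Q X0 Y I : ℕ) (θ : ℝ) :
    (ffm h u Q X0 Y I θ).re = ∑ i ∈ range (I + 1), (3 / 4 : ℝ) ^ i * (ff h u Q X0 (sc Y I i) θ).re := by
  unfold ffm
  rw [Complex.re_sum]
  apply Finset.sum_congr rfl
  intro i _
  have hw : (((3 / 4 : ℝ) : ℂ) ^ i) = (((3 / 4 : ℝ) ^ i : ℝ) : ℂ) := by push_cast; rfl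
  rw [hw, Complex.re_ofReal_mul]

/-- the bound on the major arcs -/
lemma mix_major (hG : Gr h X0 K) (hk : 2 ≤ h.natDegree) (Y I : ℕ) (hY : X0 ≤ Y) (B Q : ℕ)
    (hQ : 1 ≤ Q) (η τ : ℝ) (hη : 0 ≤ η) (hη1 : η ≤ 1) (u : ℕ → ℤ → ℝ) (hu : Adm2 h B Q η τ u)
    (hτ0 : 0 ≤ τ) (hτ : τ * (1 + (16 * (16 * K) + 8)) ≤ 1) (l D : ℝ) (hl : 1 ≤ l) (hD : 1 ≤ D)
    (hbig : (304 * l * (K : ℝ) ^ 2 + 16 * (32 * (K : ℝ) ^ 2 + 4 * hv h X0)) *
      (D ^ 2 * (Q : ℝ) ^ (B + 3)) ≤ Y)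
    (hI : 128 * K * (Q : ℝ) ^ (B + 2) * (3 / 4) ^ I ≤ 1)
    (q : ℕ) (a : ℤ) (hq1 : 1 ≤ q) (hqD : (q : ℝ) ≤ l * D) (hcop : IsCoprime a (q : ℤ)) (θ : ℝ)
    (hβ : |θ - a / q| ≤ D / (sc Y I 0 : ℝ) ^ h.natDegree) :
    -(8 * η + 4 / Q) ≤ (ffm h u Q X0 Y I θ).re := by
  have hX01 := hG.X0pos
  have hY1 : 1 ≤ Y := by omega
  have hYr : (1 : ℝ) ≤ Y := by exact_mod_cast hY1
  have hY0 : (0 : ℝ) < Y := by linarith
  have hKr : (1 : ℝ) ≤ K := by exact_mod_cast hG.Kpos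
  have hQr : (1 : ℝ) ≤ Q := by exact_mod_cast hQ
  have hQ0 : (0 : ℝ) < Q := by linarith
  have hH0 := hG.hv_pos (x := X0) le_rfl
  have hsY : ∀ i, X0 ≤ sc Y I i := fun i => hY.trans (sc_ge Y I i)
  have hs1 : ∀ i, 1 ≤ sc Y I i := fun i => by have := hsY i; omega
  have hsr : ∀ i, (1 : ℝ) ≤ sc Y I i := fun i => by exact_mod_cast hs1 i
  have hsYr : ∀ i, (Y : ℝ) ≤ sc Y I i := fun i => by exact_mod_cast sc_ge Y I i
  have hL : ∀ i, 0 < hv h (sc Y I i) := fun i => hG.hv_pos (hsY i)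
  set β : ℝ := θ - a / q with hβd
  have hθ : θ = a / q + β := by rw [hβd]; ring
  have hDQ : (1 : ℝ) ≤ D ^ 2 * (Q : ℝ) ^ (B + 3) :=
    one_le_mul_of_one_le_of_one_le (one_le_pow₀ hD) (one_le_pow₀ hQr)
  set A : ℝ := 32 * (K : ℝ) ^ 2 + 4 * hv h X0 with hA
  have hA0 : 0 < A := by positivity
  have hlK : 0 < 304 * l * (K : ℝ) ^ 2 := by positivity
  have hDD : D ≤ D ^ 2 * (Q : ℝ) ^ (B + 3) := by
    have h1 : D ≤ D ^ 2 := by nlinarith
    have h2 : D ^ 2 * 1 ≤ D ^ 2 * (Q : ℝ) ^ (B + 3) :=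
      mul_le_mul_of_nonneg_left (one_le_pow₀ hQr) (by positivity)
    linarith
  have hbig1 : 16 * A * (D ^ 2 * (Q : ℝ) ^ (B + 3)) ≤ Y := by
    refine le_trans ?_ hbig
    apply mul_le_mul_of_nonneg_right _ (by linarith)
    linarith
  have hbig2 : 304 * l * (K : ℝ) ^ 2 * (D ^ 2 * (Q : ℝ) ^ (B + 3)) ≤ Y := by
    refine le_trans ?_ hbig
    apply mul_le_mul_of_nonneg_right _ (by linarith)
    linarith
  have hDY : 2 * D ≤ Y := by
    refine le_trans ?_ hbig1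
    have h1 : (32 : ℝ) ≤ A := by
      rw [hA]
      nlinarith
    have h2 : 2 * D ≤ 16 * A * D := by nlinarith
    exact h2.trans (mul_le_mul_of_nonneg_left hDD (by positivity))
  have hβ2 : |β| ≤ 1 / 2 := by
    refine hβ.trans ?_
    have h1 : (Y : ℝ) ≤ (sc Y I 0 : ℝ) ^ h.natDegree := by
      calc (Y : ℝ) ≤ (sc Y I 0 : ℝ) := hsYr 0
        _ ≤ (sc Y I 0 : ℝ) ^ h.natDegree := le_self_pow₀ (hsr 0) (by omega)
    rw [div_le_iff₀ (by linarith)]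
    linarith
  set ε : ℝ := A * D / Y with hε
  have hε0 : 0 ≤ ε := by positivity
  obtain ⟨m1, m2⟩ := mix_ker hG hk Y I hY D hD β hβ hβ2 (by
    rw [← hA]
    refine le_trans ?_ hbig1
    have h2 : 2 * (A * D) ≤ 16 * A * D := by nlinarith
    exact h2.trans (mul_le_mul_of_nonneg_left hDD (by positivity))) ε (by rw [hε, hA])
  set Vm : ℂ := ∑ i ∈ range (I + 1), ((3 / 4 : ℝ) ^ i : ℂ) * VV h X0 (sc Y I i) β with hVm
  obtain ⟨G, hGs, hGF⟩ := hu.sec q hq1 a hcop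
  set F : ℂ := ∑ n ∈ Finset.Icc 1 Q, mn h (u n) n q a with hF
  have hFn : ‖F‖ ≤ (Q : ℝ) ^ (B + 1) := F_norm u B Q hu.bd q hq1 a
  have hQB : (1 : ℝ) ≤ (Q : ℝ) ^ (B + 1) := one_le_pow₀ hQr
  have hGn : ‖G‖ ≤ 2 * (Q : ℝ) ^ (B + 1) := by
    have h1 : ‖G‖ ≤ ‖F‖ + ‖F - G‖ := by
      have : G = F - (F - G) := by ring
      calc ‖G‖ = ‖F - (F - G)‖ := by rw [← this]
        _ ≤ _ := norm_sub_le _ _
    linarith
  -- main term
  have hre := sec_mul_re G Vm τ (16 * (16 * K) + 8) ε (4 * ε + 4 * (16 * K) * (3 / 4) ^ I) hGs hτ0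
    (by positivity) hτ hε0 (by positivity) (by linarith) (by linarith)
  -- size of the error in the main term
  have hw0 : (0 : ℝ) < (3 / 4) ^ I := by positivity
  have he1 : ‖G‖ * (4 * ε + (4 * ε + 4 * (16 * K) * (3 / 4) ^ I)) ≤ 2 / Q := by
    have h1 : ‖G‖ * (4 * ε + (4 * ε + 4 * (16 * K) * (3 / 4) ^ I)) ≤
        2 * (Q : ℝ) ^ (B + 1) * (8 * ε + 64 * K * (3 / 4) ^ I) := by
      have h0 : 4 * ε + (4 * ε + 4 * (16 * K) * (3 / 4) ^ I) = 8 * ε + 64 * K * (3 / 4) ^ I := by ring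
      rw [h0]
      exact mul_le_mul_of_nonneg_right hGn (by positivity)
    refine h1.trans ?_
    have h2 : 16 * (Q : ℝ) ^ (B + 1) * ε ≤ 1 / Q := by
      rw [hε, le_div_iff₀ hQ0, ← mul_div_assoc, div_mul_eq_mul_div, div_le_one hY0]
      refine le_trans ?_ hbig1
      have h3 : 16 * (Q : ℝ) ^ (B + 1) * (A * D) * Q = 16 * A * (D * (Q : ℝ) ^ (B + 2)) := by ring
      rw [h3]
      apply mul_le_mul_of_nonneg_left _ (by positivity)
      apply mul_le_mul _ _ (by positivity) (by positivity)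
      · nlinarith
      · exact pow_le_pow_right₀ hQr (by omega)
    have h4 : 128 * K * (Q : ℝ) ^ (B + 1) * (3 / 4) ^ I ≤ 1 / Q := by
      rw [le_div_iff₀ hQ0]
      calc 128 * K * (Q : ℝ) ^ (B + 1) * (3 / 4) ^ I * Q = 128 * K * (Q : ℝ) ^ (B + 2) * (3 / 4) ^ I := by
            ring
        _ ≤ 1 := hI
    have h5 : (2 : ℝ) / Q = 1 / Q + 1 / Q := by ring
    rw [h5]
    calc 2 * (Q : ℝ) ^ (B + 1) * (8 * ε + 64 * K * (3 / 4) ^ I) =
        16 * (Q : ℝ) ^ (B + 1) * ε + 128 * K * (Q : ℝ) ^ (B + 1) * (3 / 4) ^ I := by ring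
      _ ≤ _ := add_le_add h2 h4
  have hFG : |((F - G) * Vm).re| ≤ 8 * η := by
    refine (Complex.abs_re_le_norm _).trans ?_
    rw [norm_mul]
    calc ‖F - G‖ * ‖Vm‖ ≤ η * 8 := mul_le_mul hGF (mix_norm hG Y I hY β) (norm_nonneg _) hη
      _ = 8 * η := by ring
  -- the approximation error
  have herr : ‖ffm h u Q X0 Y I θ - F * Vm‖ ≤ 1 / Q := by
    have e1 : ffm h u Q X0 Y I θ - F * Vm = ∑ i ∈ range (I + 1), ((3 / 4 : ℝ) ^ i : ℂ) *
        (ff h u Q X0 (sc Y I i) θ - F * VV h X0 (sc Y I i) β) := by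
      unfold ffm
      rw [hVm, Finset.mul_sum, ← Finset.sum_sub_distrib]
      apply Finset.sum_congr rfl
      intro i _
      ring
    rw [e1]
    refine (norm_sum_le _ _).trans ?_
    have h1 : ∀ i ∈ range (I + 1), ‖((3 / 4 : ℝ) ^ i : ℂ) *
        (ff h u Q X0 (sc Y I i) θ - F * VV h X0 (sc Y I i) β)‖ ≤
        (3 / 4 : ℝ) ^ i * (76 * l * (K : ℝ) ^ 2 * D ^ 2 * (Q : ℝ) ^ (B + 2) / Y) := by
      intro i _
      rw [norm_mul, norm_pow, Complex.norm_real, Real.norm_of_nonneg (by norm_num)]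
      apply mul_le_mul_of_nonneg_left _ (by positivity)
      have hmaj := hG.major (hsY i) B Q u hu.per hu.bd q hq1 a β
      rw [← hθ, ← hF] at hmaj
      refine hmaj.trans ?_
      have hXk0 : (0 : ℝ) < (sc Y I 0 : ℝ) ^ h.natDegree := by
        have := hsr 0
        positivity
      have hβL : |β| * hv h (sc Y I i) ≤ K * D := by
        calc |β| * hv h (sc Y I i) ≤ (D / (sc Y I 0 : ℝ) ^ h.natDegree) *
              (K * (sc Y I 0 : ℝ) ^ h.natDegree) := by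
              apply mul_le_mul hβ _ (hL i).le
              · apply div_nonneg (by linarith) hXk0.le
              · exact (hG.mono (hsY i) (sc_anti Y I (Nat.zero_le i))).trans (hG.up _ (hs1 0))
          _ = K * D := by field_simp
      have hE1 := num_maj (l := l) (K := K) (D := D) (Q := Q) (X := sc Y I i) (r := rr h (sc Y I i))
        (b := |β|) (L := hv h (sc Y I i)) (q := q) (B := B) hl hKr hD hQr (hsr i)
        (hG.rr_nonneg (hsY i)) (hG.rr_le (by omega) (hsY i))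
        (mul_nonneg (abs_nonneg _) (hL i).le) hβL (Nat.cast_nonneg q) hqD
      refine hE1.trans ?_
      apply div_le_div_of_nonneg_left _ hY0 (hsYr i)
      positivity
    refine (Finset.sum_le_sum h1).trans ?_
    rw [← Finset.sum_mul]
    have h2 := geo34' (I + 1)
    have h3 : 0 ≤ 76 * l * (K : ℝ) ^ 2 * D ^ 2 * (Q : ℝ) ^ (B + 2) / Y := by positivity
    calc _ ≤ 4 * (76 * l * (K : ℝ) ^ 2 * D ^ 2 * (Q : ℝ) ^ (B + 2) / Y) :=
          mul_le_mul_of_nonneg_right h2 h3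
      _ ≤ 1 / Q := by
          rw [le_div_iff₀ hQ0, ← mul_div_assoc, div_mul_eq_mul_div, div_le_one hY0]
          refine le_trans (le_of_eq ?_) hbig2
          ring
  have h20 := (Complex.abs_re_le_norm _).trans herr
  rw [Complex.sub_re] at h20
  have h21 := (abs_le.1 h20).1
  have h22 : F * Vm = G * Vm + (F - G) * Vm := by ring
  rw [h22, Complex.add_re] at h21
  have h23 := (abs_le.1 hFG).1
  have h24 : (4 : ℝ) / Q = 2 / Q + 2 * (1 / Q) := by ring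
  have h25 : 0 < 1 / (Q : ℝ) := by positivity
  linarith

end Vale.Agent.P042.X4
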