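import Vale.Agent.P042.X4.An
set_option autoImplicit false

/-! The analytic part with local factors in a narrow sector. -/

namespace Vale.Agent.P042.X4

open Polynomial Finset Vale.Agent.P042.PS463

variable {h : ℤ[X]} {X0 K : ℕ}

/-- the bound on the minor arcs -/
lemma mix_minor (hG : Gr h X0 K) (hk : 2 ≤ h.natDegree) (Y I : ℕ) (hY : X0 ≤ Y) (B Q : ℕ)
    (hQ : 1 ≤ Q) (η τ : ℝ) (u : ℕ → ℤ → ℝ) (hu : Adm2 h B Q η τ u) (θ : ℝ)
    (hmin : ∀ n, 1 ≤ n → n ≤ Q → ∀ c < n, ∀ M ≤ sc Y I 0,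
        ‖∑ x ∈ Finset.range M, e (θ * hv h x + (c : ℝ) / n * x)‖ ≤
          1 / (12 * K * (Q : ℝ) ^ (B + 3) * 2 ^ I) * sc Y I 0) :
    -(4 / (Q : ℝ)) ≤ (ffm h u Q X0 Y I θ).re := by
  have hQr : (1 : ℝ) ≤ Q := by exact_mod_cast hQ
  have hKr : (1 : ℝ) ≤ K := by exact_mod_cast hG.Kpos
  rw [ffm_re]
  have h1 : ∀ i ∈ range (I + 1), (3 / 4 : ℝ) ^ i * (-(1 / (Q : ℝ))) ≤
      (3 / 4 : ℝ) ^ i * (ff h u Q X0 (sc Y I i) θ).re := by
    intro i _
    apply mul_le_mul_of_nonneg_left _ (by positivity)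
    apply hG.low_minor hk (hY.trans (sc_ge Y I i)) B Q hQ _ u hu.adm
      (1 / (12 * K * (Q : ℝ) ^ (B + 3))) rfl θ
    intro n hn1 hnQ c hc M hM
    refine (hmin n hn1 hnQ c hc M (hM.trans (sc_anti Y I (Nat.zero_le i)))).trans ?_
    rw [sc_zero]
    push_cast
    have e1 : 1 / (12 * (K : ℝ) * (Q : ℝ) ^ (B + 3) * 2 ^ I) * (Y * 2 ^ I) =
        1 / (12 * K * (Q : ℝ) ^ (B + 3)) * Y := by
      field_simp
    rw [e1]
    apply mul_le_mul_of_nonneg_left _ (by positivity)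
    exact_mod_cast sc_ge Y I i
  have h2 := Finset.sum_le_sum h1
  rw [← Finset.sum_mul] at h2
  have h3 := geo34' (I + 1)
  have h4 : 0 < 1 / (Q : ℝ) := by positivity
  have h5 : (∑ i ∈ range (I + 1), (3 / 4 : ℝ) ^ i) * (1 / (Q : ℝ)) ≤ 4 * (1 / Q) :=
    mul_le_mul_of_nonneg_right h3 h4.le
  have h6 : (4 : ℝ) / Q = 4 * (1 / Q) := by ring
  rw [h6]
  linarith

lemma mix_zero (hG : Gr h X0 K) (hk : 2 ≤ h.natDegree) (Y I : ℕ) (hY : X0 ≤ Y) (B Q : ℕ)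
    (hQ : 1 ≤ Q) (η τ : ℝ) (u : ℕ → ℤ → ℝ) (hu : Adm2 h B Q η τ u)
    (hbig : (136 * K + 8 * hv h X0) * (Q : ℝ) ^ (B + 2) ≤ Y) (N : ℕ) (hN : hv h (sc Y I 0) ≤ N)
    (θ : ℝ) (hθ : |θ| ≤ 1 / (8 * N)) :
    1 / 4 ≤ (ffm h u Q X0 Y I θ).re := by
  rw [ffm_re]
  have h1 : ∀ i ∈ range (I + 1), (3 / 4 : ℝ) ^ i * (1 / 4) ≤
      (3 / 4 : ℝ) ^ i * (ff h u Q X0 (sc Y I i) θ).re := by
    intro i _
    apply mul_le_mul_of_nonneg_left _ (by positivity)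
    have hsY := hY.trans (sc_ge Y I i)
    apply hG.near_zero hk hsY B Q hQ _ u hu.adm _ N _ θ hθ
    · refine hbig.trans ?_
      exact_mod_cast sc_ge Y I i
    · exact (hG.mono hsY (sc_anti Y I (Nat.zero_le i))).trans hN
  have h2 := Finset.sum_le_sum h1
  rw [← Finset.sum_mul] at h2
  have h3 : (3 / 4 : ℝ) ^ 0 ≤ ∑ i ∈ range (I + 1), (3 / 4 : ℝ) ^ i :=
    Finset.single_le_sum (f := fun i => (3 / 4 : ℝ) ^ i) (fun i _ => by positivity)
      (Finset.mem_range.2 (by omega))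
  rw [pow_zero] at h3
  linarith

/-- the weights of the linear programming bound -/
noncomputable def wt (h : ℤ[X]) (u : ℕ → ℤ → ℝ) (Q Y I : ℕ) (x : ℕ) : ℝ :=
  ∑ i ∈ range (I + 1), (3 / 4 : ℝ) ^ i *
    (if x < sc Y I i then kap h (sc Y I i) x * ∑ n ∈ Finset.Icc 1 Q, u n (x : ℤ) else 0)

lemma wt_sum (h : ℤ[X]) (u : ℕ → ℤ → ℝ) (Q X0 Y I : ℕ) (θ : ℝ) :
    ∑ x ∈ Finset.Ico X0 (sc Y I 0), (wt h u Q Y I x : ℂ) *
      e (((h.eval (x : ℤ) : ℤ) : ℝ) * θ) = ffm h u Q X0 Y I θ := by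
  unfold ffm wt
  have h1 : ∀ x ∈ Finset.Ico X0 (sc Y I 0),
      ((∑ i ∈ range (I + 1), (3 / 4 : ℝ) ^ i *
        (if x < sc Y I i then kap h (sc Y I i) x * ∑ n ∈ Finset.Icc 1 Q, u n (x : ℤ) else 0) : ℝ) : ℂ) *
        e (((h.eval (x : ℤ) : ℤ) : ℝ) * θ) =
      ∑ i ∈ range (I + 1), (((3 / 4 : ℝ) ^ i : ℂ) * (if x < sc Y I i then
        ((kap h (sc Y I i) x * ∑ n ∈ Finset.Icc 1 Q, u n (x : ℤ) : ℝ) : ℂ) *
          e (((h.eval (x : ℤ) : ℤ) : ℝ) * θ) else 0)) := by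
    intro x _
    rw [Complex.ofReal_sum, Finset.sum_mul]
    apply Finset.sum_congr rfl
    intro i _
    split_ifs
    · push_cast
      ring
    · push_cast
      ring
  rw [Finset.sum_congr rfl h1, Finset.sum_comm]
  apply Finset.sum_congr rfl
  intro i _
  rw [← Finset.mul_sum]
  congr 1
  unfold ff
  rw [← Finset.sum_filter]
  apply Finset.sum_congr _ fun _ _ => rfl
  ext x
  have := sc_anti Y I (Nat.zero_le i)
  simp only [Finset.mem_filter, Finset.mem_Ico]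
  omega

/-- the number of scales -/
lemma exists_scales (P : ℕ) (hP : 1 ≤ P) : ∃ I : ℕ, (P : ℝ) * (3 / 4) ^ I ≤ 1 ∧ 2 ^ I ≤ 8 * P ^ 3 := by
  refine ⟨3 * Nat.clog 2 P, ?_, ?_⟩
  · have h1 : P ≤ 2 ^ Nat.clog 2 P := Nat.le_pow_clog (by norm_num) P
    have h2 : (P : ℝ) ≤ 2 ^ Nat.clog 2 P := by exact_mod_cast h1
    have h3 : ((3 / 4 : ℝ)) ^ (3 * Nat.clog 2 P) ≤ (1 / 2) ^ Nat.clog 2 P := by
      rw [pow_mul]
      exact pow_le_pow_left₀ (by norm_num) (by norm_num) _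
    calc (P : ℝ) * (3 / 4) ^ (3 * Nat.clog 2 P) ≤ 2 ^ Nat.clog 2 P * (1 / 2) ^ Nat.clog 2 P := by
          apply mul_le_mul h2 h3 (by positivity) (by positivity)
      _ = 1 := by rw [← mul_pow]; norm_num
  · have h1 : 2 ^ Nat.clog 2 P ≤ 2 * P := by
      rcases Nat.lt_or_ge P 2 with h2 | h2
      · have : P = 1 := by omega
        rw [this]
        simp
      · have h3 : 2 ^ (Nat.clog 2 P).pred < P := Nat.pow_pred_clog_lt_self (by norm_num) h2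
        have h4 : 1 ≤ Nat.clog 2 P := Nat.clog_pos (by norm_num) h2
        obtain ⟨m, hm⟩ : ∃ m, Nat.clog 2 P = m + 1 := ⟨Nat.clog 2 P - 1, by omega⟩
        rw [hm] at h3 ⊢
        rw [Nat.pred_succ] at h3
        rw [pow_succ]
        omega
    calc 2 ^ (3 * Nat.clog 2 P) = (2 ^ Nat.clog 2 P) ^ 3 := by rw [← pow_mul, mul_comm]
      _ ≤ (2 * P) ^ 3 := Nat.pow_le_pow_left h1 3
      _ = 8 * P ^ 3 := by ring

/-- the analytic theorem, sector version -/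
theorem t_an2 (h : ℤ[X]) (hk : 2 ≤ h.natDegree) (hpos : 0 < h.leadingCoeff) :
    ∃ τ : ℝ, 0 < τ ∧ τ ≤ 1 ∧ ∀ B : ℕ, ∃ C1 : ℕ, 1 ≤ C1 ∧ ∀ (Q : ℕ), 1 ≤ Q → ∀ (η : ℝ), 0 ≤ η →
      ∀ (u : ℕ → ℤ → ℝ), Adm2 h B Q η τ u →
      ∀ N : ℕ, C1 * Q ^ C1 ≤ N → (rMax h N : ℝ) ≤ C1 * (η + 1 / Q) * N := by
  obtain ⟨X0, K, hG⟩ := exists_gr h hk hpos
  obtain ⟨C, hC1, hdich⟩ := dichotomy h hk hpos
  have hK1 := hG.Kpos
  have hX01 := hG.X0pos
  have hKr : (1 : ℝ) ≤ K := by exact_mod_cast hK1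
  refine ⟨1 / (1 + (16 * (16 * K) + 8)), by positivity, ?_, ?_⟩
  · rw [div_le_one (by positivity)]
    have : (0 : ℝ) ≤ K := by positivity
    linarith
  intro B
  set τ : ℝ := 1 / (1 + (16 * (16 * K) + 8)) with hτ
  have hτ0 : 0 ≤ τ := by positivity
  have hτ1 : τ * (1 + (16 * (16 * K) + 8)) ≤ 1 := by
    rw [hτ]
    apply le_of_eq
    have : (1 + (16 * (16 * (K : ℝ)) + 8)) ≠ 0 := by positivity
    field_simp
  set k := h.natDegree with hkdef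
  set l : ℕ := h.leadingCoeff.toNat with hℓ
  have hℓr : (l : ℝ) = (h.leadingCoeff : ℝ) := by
    have : ((l : ℕ) : ℤ) = h.leadingCoeff := Int.toNat_of_nonneg hpos.le
    exact_mod_cast congrArg (Int.cast : ℤ → ℝ) this
  have hℓ1 : 1 ≤ l := by omega
  set H0 : ℕ := hn h X0 with hH0
  have hH0r : (H0 : ℝ) = hv h X0 := hG.hn_eq le_rfl
  set M0 : ℕ := X0 + (304 * l * K ^ 2 + 16 * (32 * K ^ 2 + 4 * H0)) + (136 * K + 8 * H0) with hM0
  set A : ℕ := 8 * (128 * K) ^ 3 with hA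
  set M1 : ℕ := M0 * (12 * C * K * A) ^ (2 * C) * A with hM1
  set E1 : ℕ := (4 * B + 9) * (2 * C + 1) with hE1
  set C1 : ℕ := K * M1 ^ k + E1 * k + 1024 with hC1def
  refine ⟨C1, by omega, ?_⟩
  intro Q hQ η hη u hu N hN
  have hQr : (1 : ℝ) ≤ Q := by exact_mod_cast hQ
  have hQ0 : (0 : ℝ) < Q := by linarith
  have hCr : (1 : ℝ) ≤ C := by exact_mod_cast hC1
  have hℓr1 : (1 : ℝ) ≤ l := by exact_mod_cast hℓ1
  have h1024' : 1024 ≤ C1 := Nat.le_add_left _ _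
  have h1024 : (1024 : ℝ) ≤ C1 := by
    have := (Nat.cast_le (α := ℝ)).2 h1024'
    simpa using this
  have hN0 : (0 : ℝ) ≤ N := Nat.cast_nonneg N
  -- the trivial case
  rcases lt_or_ge 1 η with hη1 | hη1
  · have h1 := rMax_le h N
    refine h1.trans ?_
    apply le_mul_of_one_le_left hN0
    have h2 : 0 < 1 / (Q : ℝ) := by positivity
    apply one_le_mul_of_one_le_of_one_le
    · linarith only [h1024]
    · linarith only [h2, hη1]
  -- parameters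
  obtain ⟨I, hI1, hI2⟩ := exists_scales (128 * K * Q ^ (B + 2)) (by
    have : 1 ≤ Q ^ (B + 2) := Nat.one_le_pow _ _ (by omega)
    exact Nat.mul_pos (by omega) this)
  set Dn : ℕ := (12 * C * K * Q ^ (B + 3) * 2 ^ I) ^ C with hDn
  set Y : ℕ := M0 * (Dn ^ 2 * Q ^ (B + 3)) with hYdef
  have hQp : 1 ≤ Q ^ (B + 3) := Nat.one_le_pow _ _ (by omega)
  have hDn1 : 1 ≤ Dn := by
    rw [hDn]
    apply Nat.one_le_pow
    exact Nat.mul_pos (Nat.mul_pos (Nat.mul_pos (Nat.mul_pos (by norm_num) hC1) hK1) hQp)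
      (by positivity)
  have hYM : M0 ≤ Y := by
    rw [hYdef]
    apply Nat.le_mul_of_pos_right
    positivity
  have hY : X0 ≤ Y := by omega
  have hY1 : 1 ≤ Y := by omega
  have hX1 : 1 ≤ sc Y I 0 := hY1.trans (sc_ge Y I 0)
  have hDr : (1 : ℝ) ≤ Dn := by exact_mod_cast hDn1
  have hQpr : (1 : ℝ) ≤ (Q : ℝ) ^ (B + 3) := one_le_pow₀ hQr
  have h2I : (1 : ℝ) ≤ 2 ^ I := one_le_pow₀ (by norm_num)
  have hδ0 : (0 : ℝ) < 1 / (12 * K * (Q : ℝ) ^ (B + 3) * 2 ^ I) := by positivity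
  have hδ1 : 1 / (12 * K * (Q : ℝ) ^ (B + 3) * 2 ^ I) ≤ 1 := by
    rw [div_le_one (by positivity)]
    have h1 := one_le_mul_of_one_le_of_one_le (one_le_mul_of_one_le_of_one_le hKr hQpr) h2I
    have h2 : 12 * (K : ℝ) * (Q : ℝ) ^ (B + 3) * 2 ^ I = 12 * (K * (Q : ℝ) ^ (B + 3) * 2 ^ I) := by
      ring
    rw [h2]
    linarith
  have hCδ : ((C : ℝ) / (1 / (12 * K * (Q : ℝ) ^ (B + 3) * 2 ^ I))) ^ C = Dn := by
    rw [hDn]
    push_cast
    congr 1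
    field_simp
  have hYe : (Y : ℝ) = (M0 : ℝ) * ((Dn : ℝ) ^ 2 * (Q : ℝ) ^ (B + 3)) := by
    rw [hYdef]; push_cast; ring
  have hH00 := (hG.hv_pos (x := X0) le_rfl).le
  have hM0r : 304 * (l : ℝ) * (K : ℝ) ^ 2 + 16 * (32 * (K : ℝ) ^ 2 + 4 * hv h X0) +
      (136 * K + 8 * hv h X0) ≤ M0 := by
    rw [hM0, ← hH0r]
    push_cast
    have : (0 : ℝ) ≤ X0 := Nat.cast_nonneg _
    linarith
  have hbig : (304 * (l : ℝ) * (K : ℝ) ^ 2 + 16 * (32 * (K : ℝ) ^ 2 + 4 * hv h X0)) *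
      ((Dn : ℝ) ^ 2 * (Q : ℝ) ^ (B + 3)) ≤ Y := by
    rw [hYe]
    apply mul_le_mul_of_nonneg_right _ (by positivity)
    have : 0 ≤ 136 * (K : ℝ) + 8 * hv h X0 := by positivity
    linarith
  have hbig2 : (136 * K + 8 * hv h X0) * (Q : ℝ) ^ (B + 2) ≤ Y := by
    rw [hYe]
    apply mul_le_mul
    · have : 0 ≤ 304 * (l : ℝ) * (K : ℝ) ^ 2 + 16 * (32 * (K : ℝ) ^ 2 + 4 * hv h X0) := by positivity
      linarith
    · calc (Q : ℝ) ^ (B + 2) ≤ (Q : ℝ) ^ (B + 3) := pow_le_pow_right₀ hQr (by omega)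
        _ ≤ (Dn : ℝ) ^ 2 * (Q : ℝ) ^ (B + 3) := by
          apply le_mul_of_one_le_left (by positivity)
          exact one_le_pow₀ hDr
    · positivity
    · positivity
  have hI1r : 128 * K * (Q : ℝ) ^ (B + 2) * (3 / 4) ^ I ≤ 1 := by
    have := hI1
    push_cast at this
    exact this
  have hlow : ∀ θ : ℝ, -(8 * η + 4 / Q) ≤ (ffm h u Q X0 Y I θ).re := by
    intro θ
    rcases hdich (sc Y I 0) hX1 Q θ _ hδ0 hδ1 with hmin | ⟨q, a, hq1, hqD, hcop, hβ⟩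
    · have := mix_minor hG hk Y I hY B Q hQ η τ u hu θ hmin
      linarith
    · rw [hCδ] at hqD hβ
      rw [← hℓr] at hqD
      exact mix_major hG hk Y I hY B Q hQ η τ hη hη1 u hu hτ0 hτ1 l Dn hℓr1 hDr hbig hI1r q a hq1
        hqD hcop θ hβ
  -- the size of `N`
  have hNX : hv h (sc Y I 0) ≤ N := by
    have h1 := hG.up (sc Y I 0) hX1
    refine h1.trans ?_
    have hb1 : sc Y I 0 ≤ M1 * Q ^ E1 := by
      have e1 : 2 ^ I ≤ A * Q ^ (3 * (B + 2)) := by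
        refine hI2.trans (le_of_eq ?_)
        rw [hA, mul_pow, ← pow_mul]
        ring
      have e2 : Dn ≤ (12 * C * K * A) ^ C * Q ^ ((4 * B + 9) * C) := by
        rw [hDn]
        calc (12 * C * K * Q ^ (B + 3) * 2 ^ I) ^ C
            ≤ (12 * C * K * Q ^ (B + 3) * (A * Q ^ (3 * (B + 2)))) ^ C :=
              Nat.pow_le_pow_left (Nat.mul_le_mul_left _ e1) C
          _ = (12 * C * K * A * Q ^ (4 * B + 9)) ^ C := by
              congr 1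
              have : 4 * B + 9 = (B + 3) + 3 * (B + 2) := by ring
              rw [this, pow_add]
              ring
          _ = (12 * C * K * A) ^ C * Q ^ ((4 * B + 9) * C) := by rw [mul_pow, ← pow_mul]
      calc sc Y I 0 = Y * 2 ^ I := rfl
        _ = M0 * (Dn ^ 2 * Q ^ (B + 3)) * 2 ^ I := by rw [hYdef]
        _ ≤ M0 * (((12 * C * K * A) ^ C * Q ^ ((4 * B + 9) * C)) ^ 2 * Q ^ (B + 3)) *
            (A * Q ^ (3 * (B + 2))) := by
            apply Nat.mul_le_mul _ e1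
            apply Nat.mul_le_mul_left
            apply Nat.mul_le_mul_right
            exact Nat.pow_le_pow_left e2 2
        _ = M1 * Q ^ E1 := by
            rw [hM1, hE1, mul_pow, ← pow_mul, ← pow_mul]
            have : (4 * B + 9) * (2 * C + 1) = (4 * B + 9) * C * 2 + (B + 3) + 3 * (B + 2) := by ring
            rw [this, pow_add, pow_add, mul_comm C 2]
            ring
    have h2 : K * (sc Y I 0) ^ k ≤ N := by
      calc K * (sc Y I 0) ^ k ≤ K * (M1 * Q ^ E1) ^ k :=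
            Nat.mul_le_mul_left K (Nat.pow_le_pow_left hb1 k)
        _ = K * M1 ^ k * Q ^ (E1 * k) := by rw [mul_pow, ← pow_mul]; ring
        _ ≤ C1 * Q ^ C1 := by
            apply Nat.mul_le_mul
            · omega
            · exact Nat.pow_le_pow_right (by omega) (by omega)
        _ ≤ N := hN
    exact_mod_cast h2
  have hN1 : 1 ≤ N := by
    have h3 := hG.hv_pos (hY.trans (sc_ge Y I 0))
    have h4 : (0 : ℝ) < N := lt_of_lt_of_le h3 hNX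
    exact_mod_cast h4
  have hfin := lp_bound h N hN1 (Finset.Ico X0 (sc Y I 0)) (wt h u Q Y I) (8 * η + 4 / Q) ?_ ?_ ?_
  · refine hfin.trans ?_
    have h6 : (0 : ℝ) < 1 / Q := by positivity
    apply mul_le_mul_of_nonneg_right _ hN0
    have h10 : 1024 * (η + 1 / (Q : ℝ)) ≤ C1 * (η + 1 / (Q : ℝ)) :=
      mul_le_mul_of_nonneg_right h1024 (by positivity)
    have h11 : (4 : ℝ) / Q = 4 * (1 / Q) := by ring
    rw [h11]
    linarith only [h10, h6, hη]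
  · intro x hx
    rw [Finset.mem_Ico] at hx
    refine ⟨by omega, ?_⟩
    have h8 := hG.hv_pos hx.1
    unfold hv at h8
    intro h9
    rw [h9] at h8
    simp at h8
  · intro θ
    rw [wt_sum]
    exact hlow θ
  · intro θ hθ
    rw [wt_sum]
    exact mix_zero hG hk Y I hY B Q hQ η τ u hu hbig2 N hNX θ hθ

end Vale.Agent.P042.X4
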