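import Vale.Agent.P042.PS463.Loc
import Vale.Agent.P042.X4.Glue2
set_option autoImplicit false

/-! Local data with sectors. -/

namespace Vale.Agent.P042.X4

open Polynomial Finset Vale.Agent.P042.PS463

/-- local data at all primes, weak form -/
structure LocW (h : ℤ[X]) (v : ℕ → ℕ → ℤ → ℝ) (B : ℕ) : Prop where
  one : ∀ (p : ℕ) (x : ℤ), v p 0 x = 1
  per : ∀ p i : ℕ, p.Prime → ∀ x : ℤ, v p i (x + (p ^ i : ℕ)) = v p i x
  bd : ∀ p i : ℕ, p.Prime → ∀ x : ℤ, |v p i x| ≤ (((p ^ i : ℕ) : ℝ)) ^ B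
  zero : ∀ p i j : ℕ, p.Prime → j < i → ∀ a : ℤ, (j = 0 ∨ IsCoprime a (p : ℤ)) →
    mn h (v p i) (p ^ i) (p ^ j) a = 0

/-- local data at all primes, with sectors at the primes below `p0` -/
structure Loc2 (h : ℤ[X]) (v : ℕ → ℕ → ℤ → ℝ) (B p0 : ℕ) (C c1 α : ℝ) : Prop extends LocW h v B where
  sec : ∀ p j : ℕ, p.Prime → 1 ≤ j → ∀ a : ℤ, IsCoprime a (p : ℤ) →
    Sec (if p < p0 then α else 0) (∑ i ∈ Finset.range (j + 1), mn h (v p i) (p ^ i) (p ^ j) a)
  sum : ∀ p j : ℕ, p.Prime → 1 ≤ j → ∀ a : ℤ, IsCoprime a (p : ℤ) →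
    ∑ i ∈ Finset.range (j + 1), ((p ^ i : ℕ) : ℝ) ^ c1 * ‖mn h (v p i) (p ^ i) (p ^ j) a‖ ≤ C
  sum1 : ∀ p j : ℕ, p.Prime → p0 ≤ p → 1 ≤ j → ∀ a : ℤ, IsCoprime a (p : ℤ) →
    ∑ i ∈ Finset.range (j + 1), ((p ^ i : ℕ) : ℝ) ^ c1 * ‖mn h (v p i) (p ^ i) (p ^ j) a‖ ≤ 1

variable {h : ℤ[X]} {v : ℕ → ℕ → ℤ → ℝ} {B p0 : ℕ} {C c1 α : ℝ}

lemma LocW.uu_pow (hL : LocW h v B) {p : ℕ} (hp : p.Prime) (i : ℕ) : uu v (p ^ i) = v p i := by
  funext x
  unfold uu
  rw [hp.factorization_pow, Finsupp.prod_single_index (hL.one p x)]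

lemma LocW.uu_per (hL : LocW h v B) {n m : ℕ} (hn : 1 ≤ n) (hnm : n ∣ m) (x : ℤ) :
    uu v n (x + m) = uu v n x := by
  unfold uu
  apply Finsupp.prod_congr
  intro p hp
  have hpp : p.Prime := Nat.prime_of_mem_primeFactors hp
  obtain ⟨b, hb⟩ : p ^ (n.factorization p) ∣ m := (Nat.ordProj_dvd n p).trans hnm
  rw [hb]
  have h1 : ∀ b : ℕ, v p (n.factorization p) (x + ((p ^ (n.factorization p) * b : ℕ) : ℤ)) =
      v p (n.factorization p) x := by
    intro b
    induction b with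
    | zero => simp
    | succ b ih =>
      rw [← ih, ← hL.per p (n.factorization p) hpp (x + ((p ^ (n.factorization p) * b : ℕ) : ℤ))]
      congr 1
      push_cast
      ring
  exact h1 b

lemma LocW.uu_bd (hL : LocW h v B) {n : ℕ} (hn : 1 ≤ n) (x : ℤ) :
    |uu v n x| ≤ (n : ℝ) ^ B := by
  unfold uu
  rw [Finsupp.prod, Finset.abs_prod]
  have h1 : (n : ℝ) = ∏ p ∈ n.factorization.support, (((p ^ (n.factorization p) : ℕ)) : ℝ) := by
    have := Nat.prod_factorization_pow_eq_self (n := n) (by omega)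
    conv_lhs => rw [← this]
    rw [Finsupp.prod]
    push_cast
    rfl
  conv_rhs => rw [h1]
  rw [← Finset.prod_pow]
  apply Finset.prod_le_prod
  · intro p _
    exact abs_nonneg _
  · intro p hp
    exact hL.bd p _ (Nat.prime_of_mem_primeFactors hp) x

/-- factorisation of the means -/
lemma LocW.mn_mul (hL : LocW h v B) {n1 n2 q1 q2 : ℕ} (hn1 : 1 ≤ n1) (hn2 : 1 ≤ n2)
    (hq1 : 1 ≤ q1) (hq2 : 1 ≤ q2) (hcop : Nat.Coprime (n1 * q1) (n2 * q2)) (a a1 a2 : ℤ)
    (ha : a = a1 * q2 + a2 * q1) :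
    mn h (uu v (n1 * n2)) (n1 * n2) (q1 * q2) a = mn h (uu v n1) n1 q1 a1 * mn h (uu v n2) n2 q2 a2 := by
  have hper : ∀ (n q : ℕ) (b : ℤ), 1 ≤ n → 1 ≤ q → ∀ x : ℕ,
      (uu v n ((x + n * q : ℕ) : ℤ) : ℂ) *
        e ((b : ℝ) * ((h.eval ((x + n * q : ℕ) : ℤ) : ℤ) : ℝ) / (q : ℝ)) =
      (uu v n (x : ℤ) : ℂ) * e ((b : ℝ) * ((h.eval (x : ℤ) : ℤ) : ℝ) / (q : ℝ)) := by
    intro n q b hn hq x
    have h1 : uu v n ((x + n * q : ℕ) : ℤ) = uu v n (x : ℤ) := by
      have := hL.uu_per hn (Dvd.intro q rfl : n ∣ n * q) (x : ℤ)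
      rw [← this]
      push_cast
      rfl
    have h2 := e_eval_periodic h b q hq (x : ℤ) (n : ℤ)
    have h3 : ((x + n * q : ℕ) : ℤ) = (q : ℤ) * (n : ℤ) + (x : ℤ) := by push_cast; ring
    rw [h1, h3, h2]
  have hq1r : (q1 : ℝ) ≠ 0 := by exact_mod_cast (by omega : q1 ≠ 0)
  have hq2r : (q2 : ℝ) ≠ 0 := by exact_mod_cast (by omega : q2 ≠ 0)
  have hc12 : Nat.Coprime n1 n2 :=
    Nat.Coprime.coprime_dvd_left (Dvd.intro _ rfl) (Nat.Coprime.coprime_dvd_right (Dvd.intro _ rfl) hcop)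
  have hnq1 : 1 ≤ n1 * q1 := Nat.one_le_iff_ne_zero.2 (Nat.mul_ne_zero (by omega) (by omega))
  unfold mn
  rw [div_mul_div_comm]
  congr 1
  · rw [← mean_mul _ _ (n1 * q1) (n2 * q2) hnq1 (Nat.coprime_comm.1 hcop)
      (hper n1 q1 a1 hn1 hq1) (hper n2 q2 a2 hn2 hq2)]
    have h4 : n1 * n2 * (q1 * q2) = n1 * q1 * (n2 * q2) := by ring
    rw [h4]
    apply Finset.sum_congr rfl
    intro x _
    rw [uu_mul v hc12]
    have h5 : e ((a : ℝ) * ((h.eval (x : ℤ) : ℤ) : ℝ) / ((q1 * q2 : ℕ) : ℝ)) =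
        e ((a1 : ℝ) * ((h.eval (x : ℤ) : ℤ) : ℝ) / (q1 : ℝ)) *
        e ((a2 : ℝ) * ((h.eval (x : ℤ) : ℤ) : ℝ) / (q2 : ℝ)) := by
      rw [← e_add]
      congr 1
      rw [ha]
      push_cast
      field_simp
    rw [h5]
    push_cast
    ring
  · push_cast
    ring

/-- vanishing off the divisors -/
lemma LocW.mn_zero (hL : LocW h v B) {n q : ℕ} (hn : 1 ≤ n) (hq : 1 ≤ q) (a : ℤ)
    (ha : IsCoprime a (q : ℤ)) (hnq : ¬ n ∣ q) : mn h (uu v n) n q a = 0 := by
  obtain ⟨p, hp, hpf⟩ : ∃ p, p.Prime ∧ q.factorization p < n.factorization p := by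
    by_contra hcon
    push Not at hcon
    apply hnq
    rw [← Nat.factorization_le_iff_dvd (by omega) (by omega)]
    intro p
    by_cases hp : p.Prime
    · exact hcon p hp
    · rw [Nat.factorization_eq_zero_of_not_prime _ hp]
      exact Nat.zero_le _
  set i := n.factorization p with hi
  set j := q.factorization p with hj
  obtain ⟨n', hn'⟩ : p ^ i ∣ n := Nat.ordProj_dvd n p
  obtain ⟨q', hq'⟩ : p ^ j ∣ q := Nat.ordProj_dvd q p
  have hn'0 : n' ≠ 0 := by rintro rfl; omega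
  have hq'0 : q' ≠ 0 := by rintro rfl; omega
  have hcn : Nat.Coprime p n' := by
    have := Nat.coprime_ordCompl hp (n := n) (by omega)
    have h1 : n / p ^ (n.factorization p) = n' := by
      rw [← hi]
      conv_lhs => rw [hn']
      exact Nat.mul_div_cancel_left _ (pow_pos hp.pos _)
    rwa [h1] at this
  have hcq : Nat.Coprime p q' := by
    have := Nat.coprime_ordCompl hp (n := q) (by omega)
    have h1 : q / p ^ (q.factorization p) = q' := by
      rw [← hj]
      conv_lhs => rw [hq']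
      exact Nat.mul_div_cancel_left _ (pow_pos hp.pos _)
    rwa [h1] at this
  have hcop : Nat.Coprime (p ^ i * p ^ j) (n' * q') := by
    rw [← pow_add]
    exact Nat.Coprime.pow_left _ (Nat.Coprime.mul_right hcn hcq)
  have hcopq : Nat.Coprime (p ^ j) q' := Nat.Coprime.pow_left _ hcq
  obtain ⟨a1, a2, ha12, hc1, hc2⟩ := exists_split hcopq a (by rw [← hq']; exact ha)
  have key := hL.mn_mul (n1 := p ^ i) (n2 := n') (q1 := p ^ j) (q2 := q') (Nat.one_le_pow _ _ hp.pos)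
    (by omega) (Nat.one_le_pow _ _ hp.pos) (by omega) hcop a a1 a2 ha12
  rw [← hn', ← hq'] at key
  rw [key, hL.uu_pow hp, hL.zero p i j hp hpf a1, zero_mul]
  rcases Nat.eq_zero_or_pos j with hj0 | hj0
  · exact Or.inl hj0
  · right
    have : ((p ^ j : ℕ) : ℤ) = (p : ℤ) * (p : ℤ) ^ (j - 1) := by
      rw [← pow_succ']
      push_cast
      congr 1
      omega
    rw [this] at hc1
    exact hc1.of_mul_right_left

lemma LocW.Gam_mul (hL : LocW h v B) {q1 q2 : ℕ} (hq1 : 1 ≤ q1) (hq2 : 1 ≤ q2)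
    (hcop : Nat.Coprime q1 q2) (a a1 a2 : ℤ) (ha : a = a1 * q2 + a2 * q1) :
    Gam h v (q1 * q2) a = Gam h v q1 a1 * Gam h v q2 a2 := by
  unfold Gam
  rw [sum_divisors_mul _ hcop, Finset.sum_mul_sum]
  apply Finset.sum_congr rfl
  intro x hx
  apply Finset.sum_congr rfl
  intro y hy
  have hx' := Nat.dvd_of_mem_divisors hx
  have hy' := Nat.dvd_of_mem_divisors hy
  exact hL.mn_mul (Nat.pos_of_mem_divisors hx) (Nat.pos_of_mem_divisors hy) hq1 hq2
    (cop_div hcop hx' hy') a a1 a2 ha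

lemma LocW.Ran_mul (hL : LocW h v B) {q1 q2 : ℕ} (hq1 : 1 ≤ q1) (hq2 : 1 ≤ q2)
    (hcop : Nat.Coprime q1 q2) (a a1 a2 : ℤ) (ha : a = a1 * q2 + a2 * q1) :
    Ran h v c1 (q1 * q2) a = Ran h v c1 q1 a1 * Ran h v c1 q2 a2 := by
  unfold Ran
  rw [sum_divisors_mul _ hcop, Finset.sum_mul_sum]
  apply Finset.sum_congr rfl
  intro x hx
  apply Finset.sum_congr rfl
  intro y hy
  have hx' := Nat.dvd_of_mem_divisors hx
  have hy' := Nat.dvd_of_mem_divisors hy
  rw [hL.mn_mul (Nat.pos_of_mem_divisors hx) (Nat.pos_of_mem_divisors hy) hq1 hq2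
    (cop_div hcop hx' hy') a a1 a2 ha, norm_mul, Nat.cast_mul,
    Real.mul_rpow (Nat.cast_nonneg _) (Nat.cast_nonneg _)]
  ring

theorem Loc2.main (hL : Loc2 h v B p0 C c1 α) (hC : 1 ≤ C) (q : ℕ) : 1 ≤ q →
    ∀ a : ℤ, IsCoprime a (q : ℤ) →
      Sec ((q.primeFactors.filter (· < p0)).card * α) (Gam h v q a) ∧
      Ran h v c1 q a ≤ C ^ (q.primeFactors.filter (· < p0)).card := by
  have hW : LocW h v B := hL.toLocW
  induction q using Nat.recOnPosPrimePosCoprime with
  | prime_pow p n hp hn =>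
    intro _ a ha
    have hap : IsCoprime a (p : ℤ) := by
      have : ((p ^ n : ℕ) : ℤ) = (p : ℤ) * (p : ℤ) ^ (n - 1) := by
        rw [← pow_succ']
        push_cast
        congr 1
        omega
      rw [this] at ha
      exact ha.of_mul_right_left
    have hG : Gam h v (p ^ n) a = ∑ i ∈ Finset.range (n + 1), mn h (v p i) (p ^ i) (p ^ n) a := by
      unfold Gam
      rw [Nat.sum_divisors_prime_pow hp]
      apply Finset.sum_congr rfl
      intro i _
      rw [hW.uu_pow hp]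
    have hR : Ran h v c1 (p ^ n) a = ∑ i ∈ Finset.range (n + 1),
        ((p ^ i : ℕ) : ℝ) ^ c1 * ‖mn h (v p i) (p ^ i) (p ^ n) a‖ := by
      unfold Ran
      rw [Nat.sum_divisors_prime_pow hp]
      apply Finset.sum_congr rfl
      intro i _
      rw [hW.uu_pow hp]
    have hs := hL.sec p n hp hn a hap
    rw [hG, hR]
    rw [Nat.primeFactors_prime_pow (by omega) hp]
    by_cases hpp : p < p0
    · rw [if_pos hpp] at hs
      rw [Finset.filter_singleton, if_pos hpp, Finset.card_singleton, pow_one, Nat.cast_one, one_mul]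
      exact ⟨hs, hL.sum p n hp hn a hap⟩
    · rw [if_neg hpp] at hs
      rw [Finset.filter_singleton, if_neg hpp, Finset.card_empty, pow_zero, Nat.cast_zero, zero_mul]
      exact ⟨hs, hL.sum1 p n hp (by omega) hn a hap⟩
  | zero => intro h0; omega
  | one =>
    intro _ a _
    have hG : Gam h v 1 a = 1 := by
      unfold Gam
      rw [Nat.divisors_one, Finset.sum_singleton, mn_one_one]
    have hR : Ran h v c1 1 a = 1 := by
      unfold Ran
      rw [Nat.divisors_one, Finset.sum_singleton, mn_one_one]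
      simp
    rw [hG, hR]
    simp [sec_one]
  | coprime q1 q2 h1 h2 hcop ih1 ih2 =>
    intro _ a ha
    obtain ⟨a1, a2, ha12, hc1, hc2⟩ := exists_split hcop a ha
    obtain ⟨i1, s1⟩ := ih1 (by omega) a1 hc1
    obtain ⟨i2, s2⟩ := ih2 (by omega) a2 hc2
    rw [hW.Gam_mul (by omega) (by omega) hcop a a1 a2 ha12,
      hW.Ran_mul (by omega) (by omega) hcop a a1 a2 ha12]
    rw [hcop.primeFactors_mul, Finset.filter_union, Finset.card_union_of_disjoint, pow_add]
    · refine ⟨?_, mul_le_mul s1 s2 (Ran_nonneg _ _) (by positivity)⟩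
      have := i1.mul i2
      rw [Nat.cast_add, add_mul]
      exact this
    · exact Finset.disjoint_filter_filter hcop.disjoint_primeFactors

/-- abstract form of the arithmetic output, with sectors -/
theorem Loc2.adm (hL : Loc2 h v B p0 C c1 α) (hC : 1 ≤ C) (hc1 : 0 < c1) (hα : 0 ≤ α) (Q : ℕ)
    (hQ : 1 ≤ Q) : Adm2 h B Q (C ^ p0 * (Q : ℝ) ^ (-c1)) (p0 * α) (uu v) := by
  have hW : LocW h v B := hL.toLocW
  have hQ0 : (0 : ℝ) < Q := by exact_mod_cast hQ
  -- the truncated sum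
  have key : ∀ q : ℕ, 1 ≤ q → ∀ a : ℤ, IsCoprime a (q : ℤ) →
      ‖∑ n ∈ Finset.Icc 1 Q, mn h (uu v n) n q a - Gam h v q a‖ ≤ C ^ p0 * (Q : ℝ) ^ (-c1) := by
    intro q hq a ha
    obtain ⟨_, hs⟩ := hL.main hC q hq a ha
    have e1 : ∑ n ∈ Finset.Icc 1 Q, mn h (uu v n) n q a =
        ∑ n ∈ q.divisors.filter (· ≤ Q), mn h (uu v n) n q a := by
      symm
      apply Finset.sum_subset
      · intro n hn
        rw [Finset.mem_filter] at hn
        rw [Finset.mem_Icc]
        exact ⟨Nat.pos_of_mem_divisors hn.1, hn.2⟩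
      · intro n hn hn2
        rw [Finset.mem_Icc] at hn
        apply hW.mn_zero hn.1 hq a ha
        intro hd
        apply hn2
        rw [Finset.mem_filter, Nat.mem_divisors]
        exact ⟨⟨hd, by omega⟩, hn.2⟩
    have e2 : Gam h v q a = ∑ n ∈ q.divisors.filter (· ≤ Q), mn h (uu v n) n q a +
        ∑ n ∈ q.divisors.filter (fun n => ¬ n ≤ Q), mn h (uu v n) n q a := by
      unfold Gam
      rw [Finset.sum_filter_add_sum_filter_not]
    rw [e1, e2, sub_add_cancel_left, norm_neg]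
    refine (norm_sum_le _ _).trans ?_
    have e3 : ∀ n ∈ q.divisors.filter (fun n => ¬ n ≤ Q), ‖mn h (uu v n) n q a‖ ≤
        (Q : ℝ) ^ (-c1) * ((n : ℝ) ^ c1 * ‖mn h (uu v n) n q a‖) := by
      intro n hn
      rw [Finset.mem_filter] at hn
      rw [← mul_assoc]
      apply le_mul_of_one_le_left (norm_nonneg _)
      rw [Real.rpow_neg hQ0.le, ← div_eq_inv_mul, one_le_div (by positivity)]
      apply Real.rpow_le_rpow hQ0.le _ hc1.le
      have : Q ≤ n := by omega
      exact_mod_cast this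
    calc _ ≤ ∑ n ∈ q.divisors.filter (fun n => ¬ n ≤ Q),
          (Q : ℝ) ^ (-c1) * ((n : ℝ) ^ c1 * ‖mn h (uu v n) n q a‖) := Finset.sum_le_sum e3
      _ ≤ ∑ n ∈ q.divisors, (Q : ℝ) ^ (-c1) * ((n : ℝ) ^ c1 * ‖mn h (uu v n) n q a‖) := by
          apply Finset.sum_le_sum_of_subset_of_nonneg (Finset.filter_subset _ _)
          intro n _ _
          positivity
      _ = (Q : ℝ) ^ (-c1) * Ran h v c1 q a := by
          unfold Ran
          rw [Finset.mul_sum]
      _ ≤ (Q : ℝ) ^ (-c1) * C ^ p0 := by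
          apply mul_le_mul_of_nonneg_left _ (by positivity)
          refine hs.trans (pow_le_pow_right₀ hC ?_)
          calc (q.primeFactors.filter (· < p0)).card ≤ (Finset.range p0).card := by
                apply Finset.card_le_card
                intro p hp
                rw [Finset.mem_filter] at hp
                exact Finset.mem_range.2 hp.2
            _ = p0 := Finset.card_range p0
      _ = _ := by ring
  refine ⟨?_, ?_, ?_, ?_⟩
  · intro n hn _ x
    exact hW.uu_per hn (dvd_refl n) x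
  · intro n hn _ x
    exact hW.uu_bd hn x
  · rw [Finset.sum_eq_single_of_mem 1 (Finset.mem_Icc.2 ⟨le_rfl, hQ⟩)]
    · exact mn_one_one v 0
    · intro n hn hn1
      rw [Finset.mem_Icc] at hn
      apply hW.mn_zero hn.1 le_rfl
      · simpa using isCoprime_zero_left.2 isUnit_one
      · intro hd
        apply hn1
        exact Nat.dvd_one.1 hd
  · intro q hq a ha
    obtain ⟨hs, _⟩ := hL.main hC q hq a ha
    refine ⟨Gam h v q a, hs.mono ?_, key q hq a ha⟩
    apply mul_le_mul_of_nonneg_right _ hα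
    have : (q.primeFactors.filter (· < p0)).card ≤ p0 := by
      calc (q.primeFactors.filter (· < p0)).card ≤ (Finset.range p0).card := by
            apply Finset.card_le_card
            intro p hp
            rw [Finset.mem_filter] at hp
            exact Finset.mem_range.2 hp.2
        _ = p0 := Finset.card_range p0
    exact_mod_cast this

end Vale.Agent.P042.X4
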