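import Vale.Agent.P042.X4.Small
set_option autoImplicit false

/-! Power saving from local data at the large primes only. -/

namespace Vale.Agent.P042.X4

open Polynomial Finset
open Vale.Agent.P042.WA.W5 (LocP)

lemma Adm2.mono_sec {h : ℤ[X]} {B Q : ℕ} {η τ τ' : ℝ} {u : ℕ → ℤ → ℝ} (hu : Adm2 h B Q η τ u)
    (hτ : τ ≤ τ') : Adm2 h B Q η τ' u :=
  ⟨hu.per, hu.bd, hu.one, fun q hq a ha => by
    obtain ⟨G, h1, h2⟩ := hu.sec q hq a ha
    exact ⟨G, h1.mono hτ, h2⟩⟩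

/-- assembling the local data -/
theorem exists_loc2 (h : ℤ[X]) (B p0 : ℕ) (C c1 α : ℝ) (hC : 1 ≤ C)
    (hloc : ∀ p : ℕ, p.Prime → ∃ v : ℕ → ℤ → ℝ,
      LocS h p v B (if p < p0 then C else 1) c1 (if p < p0 then α else 0)) :
    ∃ v : ℕ → ℕ → ℤ → ℝ, Loc2 h v B p0 C c1 α := by
  classical
  choose f hf using hloc
  refine ⟨fun p => if hp : p.Prime then f p hp else fun _ _ => 1, ⟨?_, ?_, ?_, ?_⟩, ?_, ?_, ?_⟩
  · intro p x
    split_ifs with hp
    · exact (hf p hp).one x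
    · rfl
  · intro p i hp x
    simp only [dif_pos hp]
    exact (hf p hp).per i x
  · intro p i hp x
    simp only [dif_pos hp]
    exact (hf p hp).bd i x
  · intro p i j hp hji a ha
    simp only [dif_pos hp]
    exact (hf p hp).zero i j hji a ha
  · intro p j hp hj a ha
    simp only [dif_pos hp]
    exact (hf p hp).sec j hj a ha
  · intro p j hp hj a ha
    simp only [dif_pos hp]
    refine ((hf p hp).sum j hj a ha).trans ?_
    split_ifs
    · exact le_rfl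
    · exact hC
  · intro p j hp hpp hj a ha
    simp only [dif_pos hp]
    refine ((hf p hp).sum j hj a ha).trans ?_
    rw [if_neg (by omega)]

/-- **Power saving from local data at the large primes.** -/
theorem power_saving_of_large (h : ℤ[X]) (hk : 2 ≤ h.natDegree) (hpos : 0 < h.leadingCoeff)
    (hint : Intersective h) (B : ℕ) (c1 : ℝ) (hc1 : 0 < c1) (p0 : ℕ)
    (hlarge : ∀ p : ℕ, p.Prime → p0 ≤ p → ∃ v : ℕ → ℤ → ℝ, LocP h p v B 1 c1) :
    ∃ c C : ℝ, 0 < c ∧ ∀ N : ℕ, 1 ≤ N → (rMax h N : ℝ) ≤ C * (N : ℝ) ^ (1 - c) := by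
  obtain ⟨τ, hτ0, hτ1, hglue⟩ := glue2 h hk hpos
  have hk1 : 1 ≤ h.natDegree := by omega
  obtain ⟨lam, r, H, R, hR, a1, a2, a3, a4, a5, a6⟩ := exists_aux h hk1 hpos hint
  have hA : AuxData h lam r H R := ⟨hR, a1, a2, a3, a4, a5, a6⟩
  obtain ⟨E, hE, hcg⟩ := complete_general h.natDegree hk1
  obtain ⟨K, hK, hEK⟩ := hcg R hR
  have hp0' : (0 : ℝ) < (p0 : ℝ) + 1 := by positivity
  set α : ℝ := τ / (p0 + 1) with hα
  have hα0 : 0 < α := by positivity
  have hατ : α ≤ τ := div_le_self hτ0.le (by linarith [(Nat.cast_nonneg p0 : (0 : ℝ) ≤ p0)])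
  have hα1 : α ≤ 1 := hατ.trans hτ1
  have hpα : (p0 : ℝ) * α ≤ τ := by
    rw [hα, ← mul_div_assoc, div_le_iff₀ hp0']
    nlinarith
  obtain ⟨K', hK'⟩ := exists_nat_ge (4 * (K : ℝ) / α)
  have hKK : (K : ℝ) ≤ α / 4 * K' := by
    rw [div_le_iff₀ hα0] at hK'
    linarith
  obtain ⟨c, P1, x2, hc, hx20, hx21, hall, -⟩ := PS748.choose_params E hE K'
  set C : ℝ := 1 + 2 * (x2 / (1 - x2)) with hC
  have h1x : 0 < 1 - x2 := by linarith
  have hC1 : 1 ≤ C := by
    have : 0 ≤ x2 / (1 - x2) := by positivity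
    rw [hC]; linarith
  obtain ⟨v, hv⟩ := exists_loc2 h (max B 1) p0 C (min c c1) α hC1 (by
    intro p hp
    by_cases hpp : p < p0
    · rw [if_pos hpp, if_pos hpp]
      exact ⟨_, (locS_small hA hk1 hpos E K hE hEK p hp α hα0.le hα1 K' hKK c x2 (hall p hp)
        hx21).mono hp (le_max_right _ _) le_rfl (min_le_left _ _) le_rfl⟩
    · rw [if_neg hpp, if_neg hpp]
      obtain ⟨v, hv⟩ := hlarge p hp (by omega)
      exact ⟨v, (locS_of_locP hv).mono hp (le_max_left _ _) le_rfl (min_le_right _ _) le_rfl⟩)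
  have hcc : 0 < min c c1 := lt_min hc hc1
  exact hglue (max B 1) (C ^ p0) (min c c1) hcc fun Q hQ =>
    ⟨PS463.uu v, (hv.adm hC1 hcc hα0.le Q hQ).mono_sec hpα⟩

end Vale.Agent.P042.X4
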