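import Vale.Agent.P042.X4.Loc2
import Vale.Agent.P042.WA.W5.Small
import Vale.Agent.P042.PS748.A9
set_option autoImplicit false

/-! Local data at one prime from an arbitrary coherent root, in a narrow sector. -/

namespace Vale.Agent.P042.X4

open Polynomial Finset
open Vale.Agent.P042.PS748 (omg omg_pos omg_lt_one geo_claim geom_le Zc Zc_norm_le Zc_one Zc_small
  lam_prime rho_pos rho_lt_one)
open Vale.Agent.P042.WA.W5 (vs GG cls mn_vs_zero mn_vs_succ vs_succ cls_per cls_nonneg cls_le LocP)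

/-- local data at one prime, with a sector -/
structure LocS (h : ℤ[X]) (p : ℕ) (v : ℕ → ℤ → ℝ) (B : ℕ) (C c1 α : ℝ) : Prop where
  one : ∀ x : ℤ, v 0 x = 1
  per : ∀ (i : ℕ) (x : ℤ), v i (x + (p ^ i : ℕ)) = v i x
  bd : ∀ (i : ℕ) (x : ℤ), |v i x| ≤ (((p ^ i : ℕ) : ℝ)) ^ B
  zero : ∀ i j : ℕ, j < i → ∀ a : ℤ, (j = 0 ∨ IsCoprime a (p : ℤ)) →
    PS463.mn h (v i) (p ^ i) (p ^ j) a = 0
  sec : ∀ j : ℕ, 1 ≤ j → ∀ a : ℤ, IsCoprime a (p : ℤ) →
    Sec α (∑ i ∈ Finset.range (j + 1), PS463.mn h (v i) (p ^ i) (p ^ j) a)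
  sum : ∀ j : ℕ, 1 ≤ j → ∀ a : ℤ, IsCoprime a (p : ℤ) →
    ∑ i ∈ Finset.range (j + 1), ((p ^ i : ℕ) : ℝ) ^ c1 *
      ‖PS463.mn h (v i) (p ^ i) (p ^ j) a‖ ≤ C

lemma LocS.mono {h : ℤ[X]} {p : ℕ} {v : ℕ → ℤ → ℝ} {B B' : ℕ} {C C' c1 c1' α α' : ℝ} (hp : p.Prime)
    (hv : LocS h p v B C c1 α) (hB : B ≤ B') (hC : C ≤ C') (hc : c1' ≤ c1) (hα : α ≤ α') :
    LocS h p v B' C' c1' α' := by
  have hpi : ∀ i : ℕ, (1 : ℝ) ≤ ((p ^ i : ℕ) : ℝ) := fun i => by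
    exact_mod_cast Nat.one_le_pow _ _ hp.pos
  refine ⟨hv.one, hv.per, ?_, hv.zero, ?_, ?_⟩
  · intro i x
    exact (hv.bd i x).trans (pow_le_pow_right₀ (hpi i) hB)
  · intro j hj a ha
    exact (hv.sec j hj a ha).mono hα
  · intro j hj a ha
    refine le_trans ?_ ((hv.sum j hj a ha).trans hC)
    apply Finset.sum_le_sum
    intro i _
    apply mul_le_mul_of_nonneg_right _ (norm_nonneg _)
    exact Real.rpow_le_rpow_of_exponent_le (hpi i) hc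

lemma locS_of_locP {h : ℤ[X]} {p : ℕ} {v : ℕ → ℤ → ℝ} {B : ℕ} {C c1 : ℝ}
    (hv : LocP h p v B C c1) : LocS h p v B C c1 0 :=
  ⟨hv.one, hv.per, hv.bd, hv.zero, fun j hj a ha => sec_of_real (hv.im j hj a ha) (hv.ge j hj a ha),
    hv.sum⟩

/-- the local factor lies in the sector -/
lemma local_sec {K K1 ρ α : ℝ} (hK : 0 ≤ K) (hρ : 0 < ρ) (hρ1 : ρ < 1) (hα0 : 0 ≤ α) (hα : α ≤ 1)
    (hK1 : K1 ≤ α / 4 * K) (γ : ℕ → ℂ) (t : ℕ)
    (h1 : ∀ i, t ≤ i → γ i = 1) (h2 : ∀ i, i < t → ‖γ i‖ ≤ K1 * ρ ^ (t - i)) (I : ℕ) (hI : t ≤ I) :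
    Sec α (γ 0 + ∑ i ∈ range I, (((omg K ρ) ^ (i + 1) : ℝ) : ℂ) * (γ (i + 1) - γ i)) := by
  set w := omg K ρ with hw
  have habel : ∀ J : ℕ, γ 0 + ∑ i ∈ range J, ((w ^ (i + 1) : ℝ) : ℂ) * (γ (i + 1) - γ i) =
      (1 - w) * ∑ i ∈ range J, ((w ^ i : ℝ) : ℂ) * γ i + ((w ^ J : ℝ) : ℂ) * γ J := by
    intro J
    induction J with
    | zero => simp
    | succ J ih =>
      rw [Finset.sum_range_succ, Finset.sum_range_succ, ← add_assoc, ih]
      push_cast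
      ring
  have hconst : ∀ J, t ≤ J → γ 0 + ∑ i ∈ range J, ((w ^ (i + 1) : ℝ) : ℂ) * (γ (i + 1) - γ i) =
      γ 0 + ∑ i ∈ range t, ((w ^ (i + 1) : ℝ) : ℂ) * (γ (i + 1) - γ i) := by
    intro J hJ
    induction J, hJ using Nat.le_induction with
    | base => rfl
    | succ J hJ ih =>
      rw [Finset.sum_range_succ, ← add_assoc, ih, h1 J hJ, h1 (J + 1) (by omega)]
      ring
  rw [hconst I hI, habel t, h1 t le_rfl, mul_one]
  have hw0 := omg_pos hK hρ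
  have hw1 := omg_lt_one hK hρ hρ1
  rw [← hw] at hw0 hw1
  apply sec_of_near hα (pow_nonneg hw0.le t)
  rw [add_sub_cancel_right]
  have e1 : ((1 : ℂ) - (w : ℂ)) = ((1 - w : ℝ) : ℂ) := by push_cast; rfl
  rw [e1, norm_mul, Complex.norm_real, Real.norm_of_nonneg (by linarith)]
  have h3 : ‖∑ i ∈ range t, ((w ^ i : ℝ) : ℂ) * γ i‖ ≤ K1 * ∑ i ∈ range t, w ^ i * ρ ^ (t - i) := by
    refine (norm_sum_le _ _).trans ?_
    rw [Finset.mul_sum]
    refine Finset.sum_le_sum fun i hi => ?_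
    rw [Finset.mem_range] at hi
    rw [norm_mul, Complex.norm_real, Real.norm_of_nonneg (pow_nonneg hw0.le i)]
    have h5 : 0 ≤ w ^ i := pow_nonneg hw0.le i
    calc w ^ i * ‖γ i‖ ≤ w ^ i * (K1 * ρ ^ (t - i)) := mul_le_mul_of_nonneg_left (h2 i hi) h5
      _ = _ := by ring
  have h6 := geo_claim hK hρ t
  rw [← hw] at h6
  have h7 : 0 ≤ ∑ i ∈ range t, w ^ i * ρ ^ (t - i) :=
    Finset.sum_nonneg fun i _ => by positivity
  have h8 : 0 ≤ 1 - w := by linarith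
  calc (1 - w) * ‖∑ i ∈ range t, ((w ^ i : ℝ) : ℂ) * γ i‖
      ≤ (1 - w) * (K1 * ∑ i ∈ range t, w ^ i * ρ ^ (t - i)) := mul_le_mul_of_nonneg_left h3 h8
    _ ≤ (1 - w) * ((α / 4 * K) * ∑ i ∈ range t, w ^ i * ρ ^ (t - i)) := by
        apply mul_le_mul_of_nonneg_left _ h8
        exact mul_le_mul_of_nonneg_right hK1 h7
    _ = α / 4 * ((1 - w) * K * ∑ i ∈ range t, w ^ i * ρ ^ (t - i)) := by ring
    _ ≤ α / 4 * w ^ t := mul_le_mul_of_nonneg_left h6 (by positivity)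

/-- bound for the weighted absolute sum -/
lemma local_sum {w y : ℝ} (hw0 : 0 ≤ w) (hy0 : 0 ≤ y) (x : ℝ) (hx : y * w ≤ x) (hx1 : x < 1)
    (γ : ℕ → ℂ) (hγ : ∀ i, ‖γ i‖ ≤ 1) (I : ℕ) :
    ∑ i ∈ range I, y ^ (i + 1) * ‖((w ^ (i + 1) : ℝ) : ℂ) * (γ (i + 1) - γ i)‖ ≤
      2 * (x / (1 - x)) := by
  have hx0 : 0 ≤ x := (mul_nonneg hy0 hw0).trans hx
  have h1 : ∑ i ∈ range I, y ^ (i + 1) * ‖((w ^ (i + 1) : ℝ) : ℂ) * (γ (i + 1) - γ i)‖ ≤
      ∑ i ∈ range I, 2 * x ^ (i + 1) := by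
    refine Finset.sum_le_sum fun i _ => ?_
    rw [norm_mul, Complex.norm_real, Real.norm_of_nonneg (pow_nonneg hw0 _), ← mul_assoc, ← mul_pow]
    have h2 : ‖γ (i + 1) - γ i‖ ≤ 2 := by
      refine (norm_sub_le _ _).trans ?_
      have h3 := hγ (i + 1)
      have h4 := hγ i
      linarith
    calc (y * w) ^ (i + 1) * ‖γ (i + 1) - γ i‖ ≤ x ^ (i + 1) * 2 := by
          gcongr
      _ = 2 * x ^ (i + 1) := mul_comm _ _
  rw [← Finset.mul_sum] at h1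
  have h5 := geom_le hx0 hx1 I
  linarith

variable {h : ℤ[X]} {lam : ℕ → ℕ} {r : ℕ → ℤ} {H : ℕ → ℤ[X]} {R : ℕ}

lemma GG_eq_Zc (h : ℤ[X]) (r : ℕ → ℤ) (p : ℕ) (a : ℤ) (i j : ℕ) :
    WA.W5.GG h p a i j (r (p ^ i)) = Zc h r p j a i := by
  unfold WA.W5.GG Zc WA.W5.ph
  congr 1
  funext y
  push_cast
  rfl

theorem locS_small (hA : AuxData h lam r H R) (hk : 1 ≤ h.natDegree) (hpos : 0 < h.leadingCoeff)
    (E K : ℕ) (hE : 1 ≤ E)
    (hEK : ∀ (H : ℤ[X]), H.natDegree = h.natDegree → 0 < H.leadingCoeff →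
      (∀ g : ℤ, (∀ j : ℕ, 1 ≤ j → g ∣ H.coeff j) → g ∣ (R : ℤ)) →
      ∀ (q : ℕ) [NeZero q] (a : ℤ), IsCoprime a (q : ℤ) →
        ‖ecs H a q‖ ^ E * q ≤ (K : ℝ) ^ E * (q : ℝ) ^ E)
    (p : ℕ) (hp : p.Prime) (α : ℝ) (hα0 : 0 ≤ α) (hα : α ≤ 1) (K' : ℕ)
    (hK' : (K : ℝ) ≤ α / 4 * K') (c x2 : ℝ)
    (hw : (p : ℝ) ^ c * omg K' ((p : ℝ) ^ (-(1 / (E : ℝ)))) ≤ x2) (hx2 : x2 < 1) :
    LocS h p (vs p (fun i => r (p ^ i)) 0 (omg K' ((p : ℝ) ^ (-(1 / (E : ℝ)))))) 1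
      (1 + 2 * (x2 / (1 - x2))) c α := by
  have hp1 : (1 : ℝ) ≤ p := by exact_mod_cast hp.one_lt.le
  have hK0 : (0 : ℝ) ≤ K' := Nat.cast_nonneg _
  have hρ0 := rho_pos E p hp
  have hρ1 := rho_lt_one E p hE hp
  set ρ := (p : ℝ) ^ (-(1 / (E : ℝ))) with hρ
  set w := omg (K' : ℝ) ρ with hwd
  have hw0 : 0 < w := omg_pos hK0 hρ0
  have hw1 : w < 1 := omg_lt_one hK0 hρ0 hρ1
  obtain ⟨m, hm1, hm⟩ := lam_prime hA p hp
  have hmn0 : ∀ (j : ℕ) (a : ℤ),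
      PS463.mn h (vs p (fun i => r (p ^ i)) 0 w 0) (p ^ 0) (p ^ j) a = Zc h r p j a 0 := by
    intro j a
    rw [mn_vs_zero hp]
    exact GG_eq_Zc h r p a 0 j
  have hmns : ∀ (i j : ℕ) (a : ℤ),
      PS463.mn h (vs p (fun i => r (p ^ i)) 0 w (i + 1)) (p ^ (i + 1)) (p ^ j) a =
        ((w ^ (i + 1) : ℝ) : ℂ) * (Zc h r p j a (i + 1) - Zc h r p j a i) := by
    intro i j a
    rw [mn_vs_succ hp, Nat.sub_zero]
    rw [GG_eq_Zc h r p a (i + 1) j, GG_eq_Zc h r p a i j]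
  have hsum : ∀ (j : ℕ) (a : ℤ), ∑ i ∈ Finset.range (j + 1),
      PS463.mn h (vs p (fun i => r (p ^ i)) 0 w i) (p ^ i) (p ^ j) a =
      Zc h r p j a 0 + ∑ i ∈ range j, ((w ^ (i + 1) : ℝ) : ℂ) *
        (Zc h r p j a (i + 1) - Zc h r p j a i) := by
    intro j a
    rw [Finset.sum_range_succ', add_comm, hmn0]
    congr 1
    exact Finset.sum_congr rfl fun i _ => hmns i j a
  refine ⟨fun x => rfl, ?_, ?_, ?_, ?_, ?_⟩
  · intro i x
    cases i with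
    | zero => rfl
    | succ i =>
      rw [vs_succ, vs_succ, cls_per p (i + 1) (i + 1) le_rfl, cls_per p i (i + 1) (by omega)]
  · intro i x
    cases i with
    | zero =>
      unfold vs
      simp
    | succ i =>
      rw [vs_succ]
      have h1 := cls_nonneg p (i + 1) (r (p ^ (i + 1))) x
      have h2 := cls_le p (i + 1) (r (p ^ (i + 1))) x
      have h3 := cls_nonneg p i (r (p ^ i)) x
      have h4 := cls_le p i (r (p ^ i)) x
      have h5 : (p : ℝ) ^ i ≤ (p : ℝ) ^ (i + 1) := pow_le_pow_right₀ hp1 (by omega)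
      have h6 : w ^ (i + 1 - 0) ≤ 1 := pow_le_one₀ hw0.le hw1.le
      have h7 : 0 ≤ w ^ (i + 1 - 0) := by positivity
      rw [show w ^ (i + 1 - 0) * cls p (i + 1) (r (p ^ (i + 1))) x +
        -w ^ (i + 1 - 0) * cls p i (r (p ^ i)) x =
        w ^ (i + 1 - 0) * (cls p (i + 1) (r (p ^ (i + 1))) x - cls p i (r (p ^ i)) x) by ring,
        abs_mul, abs_of_nonneg h7]
      have h9 : |cls p (i + 1) (r (p ^ (i + 1))) x - cls p i (r (p ^ i)) x| ≤ (p : ℝ) ^ (i + 1) := by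
        rw [abs_le]; constructor <;> linarith
      calc _ ≤ 1 * (p : ℝ) ^ (i + 1) := mul_le_mul h6 h9 (abs_nonneg _) (by norm_num)
        _ = _ := by push_cast; ring
  · intro i j hji a _
    cases i with
    | zero => omega
    | succ i =>
      rw [hmns i j a, Zc_one hA p hp m hm j a (i + 1), Zc_one hA p hp m hm j a i, sub_self, mul_zero]
      · calc j ≤ i := by omega
          _ = 1 * i := (one_mul i).symm
          _ ≤ m * i := Nat.mul_le_mul_right i hm1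
      · calc j ≤ i + 1 := by omega
          _ = 1 * (i + 1) := (one_mul _).symm
          _ ≤ m * (i + 1) := Nat.mul_le_mul_right _ hm1
  · intro j hj a ha
    rw [hsum j a]
    have hex : ∃ t, j ≤ m * t := ⟨j, Nat.le_mul_of_pos_left j hm1⟩
    classical
    set t := Nat.find hex with ht
    have ht1 : j ≤ m * t := Nat.find_spec hex
    have ht2 : t ≤ j := Nat.find_le (Nat.le_mul_of_pos_left j hm1)
    have ht3 : ∀ i, i < t → m * i < j := fun i hi => by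
      have := Nat.find_min hex hi
      omega
    apply local_sec hK0 hρ0 hρ1 hα0 hα hK' (fun i => Zc h r p j a i) t _ _ j ht2
    · intro i hi
      exact Zc_one hA p hp m hm j a i (ht1.trans (Nat.mul_le_mul_left m hi))
    · intro i hi
      have h1 := Zc_small hA hk hpos E K hE hEK p hp m hm j a ha i (ht3 i hi)
      refine h1.trans ?_
      apply mul_le_mul_of_nonneg_left _ (Nat.cast_nonneg K)
      apply pow_le_pow_of_le_one hρ0.le hρ1.le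
      obtain ⟨w', hw'⟩ := Nat.exists_eq_add_of_lt hi
      have h2 := ht3 (t - 1) (by omega)
      have h3 : t - 1 = i + w' := by omega
      rw [h3, Nat.mul_add] at h2
      have h4 : w' ≤ m * w' := Nat.le_mul_of_pos_left w' hm1
      omega
  · intro j hj a ha
    rw [Finset.sum_range_succ', add_comm, hmn0]
    have h1 : ((p ^ 0 : ℕ) : ℝ) ^ c * ‖Zc h r p j a 0‖ ≤ 1 := by
      rw [pow_zero, Nat.cast_one, Real.one_rpow, one_mul]
      exact Zc_norm_le h r p j a 0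
    have h2 : ∑ i ∈ range j, ((p ^ (i + 1) : ℕ) : ℝ) ^ c *
        ‖PS463.mn h (vs p (fun i => r (p ^ i)) 0 w (i + 1)) (p ^ (i + 1)) (p ^ j) a‖ =
        ∑ i ∈ range j, ((p : ℝ) ^ c) ^ (i + 1) * ‖((w ^ (i + 1) : ℝ) : ℂ) *
          (Zc h r p j a (i + 1) - Zc h r p j a i)‖ := by
      apply Finset.sum_congr rfl
      intro i _
      rw [hmns i j a]
      congr 1
      push_cast
      rw [← Real.rpow_natCast, ← Real.rpow_mul (by linarith), mul_comm, Real.rpow_mul (by linarith),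
        Real.rpow_natCast]
    rw [h2]
    have h3 := local_sum hw0.le (y := (p : ℝ) ^ c) (by positivity) x2 hw hx2
      (fun i => Zc h r p j a i) (fun i => Zc_norm_le h r p j a i) j
    linarith

end Vale.Agent.P042.X4
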